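import Vale.Agent.P150.Model

/-! A spectral gap bounds exponential moments of the overlap. -/

namespace Vale.Agent.P150

open MeasureTheory ProbabilityTheory Real Finset Matrix

variable {N : ℕ} (β : ℝ) (g : Fin N × Fin N → ℝ)

/-- Overlap sum. -/
def overlap (x y : Conf N) : ℝ := ∑ i, spin (x i) * spin (y i)

/-- Exponential overlap statistic. -/
noncomputable def stat (s : ℝ) : ℝ :=
  expect β g fun x => expect β g fun y => exp (s * |overlap x y|)

lemma cosh_sub_one_le {x b : ℝ} (h : |x| ≤ b) : cosh x - 1 ≤ x ^ 2 / 2 * exp (b ^ 2 / 2) := by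
  have h0 := cosh_le_exp_half_sq x
  have h1 := add_one_le_exp (-(x ^ 2 / 2))
  have h2 : exp (x ^ 2 / 2) * exp (-(x ^ 2 / 2)) = 1 := by rw [← exp_add]; simp
  have h3 : exp (x ^ 2 / 2) ≤ exp (b ^ 2 / 2) := by
    apply exp_le_exp.mpr
    have := pow_le_pow_left₀ (abs_nonneg x) h 2
    rw [sq_abs] at this; linarith
  have h4 := mul_le_mul_of_nonneg_left h3 (by positivity : (0:ℝ) ≤ x ^ 2 / 2)
  nlinarith [mul_le_mul_of_nonneg_left h1 (exp_pos (x ^ 2 / 2)).le]

/-- Global spin reversal. -/
def neg (x : Conf N) : Conf N := fun i => !x i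

lemma gibbs_neg (x : Conf N) : gibbs β g (neg x) = gibbs β g x := by
  have : hamiltonian β g (neg x) = hamiltonian β g x := by
    simp [hamiltonian, neg, spin_not]
  simp [gibbs, this]

lemma expect_odd {f : Conf N → ℝ} (h : ∀ x, f (neg x) = -f x) : expect β g f = 0 := by
  have hinv : Function.Involutive (neg : Conf N → Conf N) := fun x => by funext i; simp [neg]
  have e : ∑ x, gibbs β g (neg x) * f (neg x) = ∑ x, gibbs β g x * f x :=
    Fintype.sum_bijective _ hinv.bijective _ _ (fun _ => rfl)
  simp only [gibbs_neg, h, mul_neg, Finset.sum_neg_distrib] at e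
  unfold expect; linarith

theorem test_function {s : ℝ} (hs0 : 0 ≤ s) (hs1 : s ≤ 1) (hD : 6 < stat β g s) :
    ∃ f : Conf N → ℝ, expect β g f = 0 ∧ 0 < gibbsVar β g f
      ∧ dirichlet β g f ≤ 40 * N * s ^ 2 * gibbsVar β g f := by
  by_contra hno
  push Not at hno
  apply absurd hD (not_lt.mpr _)
  have key : ∀ y, expect β g (fun x => exp (s * |overlap x y|)) ≤ 6 := by
    intro y
    set f : Conf N → ℝ := fun x => sinh (s * overlap x y / 2) with hf
    have hm : expect β g f = 0 := by
      refine expect_odd β g fun x => ?_
      have : overlap (neg x) y = -overlap x y := by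
        simp [overlap, neg, spin_not, Finset.sum_neg_distrib]
      simp [hf, this, neg_div, sinh_neg]
    have hvar : gibbsVar β g f = expect β g (fun x => f x ^ 2) := by simp [gibbsVar, hm]
    have hv0 : 0 ≤ gibbsVar β g f := hvar ▸ expect_nonneg β g fun x => sq_nonneg _
    have hdir : dirichlet β g f ≤ 3 * N * s ^ 2 * (1 + gibbsVar β g f) := by
      have hstep : ∀ x i, (f (flip1 x i) - f x) ^ 2 ≤ 6 * s ^ 2 * (1 + f x ^ 2) := by
        intro x i
        set tt := spin (x i) * spin (y i) with htt
        have hov : overlap (flip1 x i) y = overlap x y - 2 * tt := by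
          unfold overlap
          rw [← Finset.add_sum_erase univ _ (mem_univ i), ← Finset.add_sum_erase univ
            (fun k => spin (x k) * spin (y k)) (mem_univ i), flip1_self, spin_not,
            Finset.sum_congr rfl fun k hk => by rw [flip1_ne x (Finset.ne_of_mem_erase hk)]]
          ring
        have habs : |s * tt / 2| = s / 2 := by
          rw [abs_div, abs_mul, htt, abs_mul, abs_spin, abs_spin, abs_of_nonneg hs0]; norm_num
        set p := s * overlap x y / 2 with hp
        set w := s * tt / 2 with hw
        have e : f (flip1 x i) - f x = -2 * cosh (p - w) * sinh w := by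
          simp only [hf, hov]
          rw [show s * (overlap x y - 2 * tt) / 2 = (p - w) - w by rw [hp, hw]; ring,
            show s * overlap x y / 2 = (p - w) + w by rw [hp]; ring, sinh_sub, sinh_add]
          ring
        have hc : cosh (p - w) ≤ exp |w| * cosh p := by
          rw [cosh_sub]
          have h1 : |sinh p| ≤ cosh p := by
            rw [abs_le]; constructor
            · nlinarith [sinh_add_cosh p, exp_pos p]
            · nlinarith [cosh_sub_sinh p, exp_pos (-p)]
          have h2 : -(sinh p * sinh w) ≤ cosh p * |sinh w| := by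
            calc _ ≤ |sinh p * sinh w| := neg_le_abs _
              _ = |sinh p| * |sinh w| := abs_mul _ _
              _ ≤ _ := mul_le_mul_of_nonneg_right h1 (abs_nonneg _)
          have h3 : cosh w + |sinh w| = exp |w| := by
            rcases le_total 0 w with h | h
            · rw [abs_of_nonneg h, abs_of_nonneg (sinh_nonneg_iff.mpr h), cosh_add_sinh]
            · rw [abs_of_nonpos h, abs_of_nonpos (sinh_nonpos_iff.mpr h), ← cosh_sub_sinh]; ring
          nlinarith [cosh_pos p]
        have hw2 : sinh w ^ 2 ≤ s ^ 2 / 4 * exp (1 / 2) := by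
          have h1 : cosh (2 * w) - 1 ≤ (2 * w) ^ 2 / 2 * exp (1 ^ 2 / 2) := by
            refine cosh_sub_one_le ?_
            rw [abs_mul, habs]; norm_num; linarith
          rw [cosh_two_mul, cosh_sq] at h1
          have h2 : w ^ 2 = s ^ 2 / 4 := by rw [← sq_abs, habs]; ring
          norm_num at h1
          rw [mul_pow, h2] at h1
          linarith
        have hp2 : cosh (p - w) ^ 2 ≤ exp s * (1 + f x ^ 2) := by
          have := pow_le_pow_left₀ (cosh_pos _).le hc 2
          rw [mul_pow, ← exp_nat_mul, habs] at this
          rw [show ((2:ℕ):ℝ) * (s / 2) = s by push_cast; ring, cosh_sq p] at this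
          simp only [hf, ← hp]; linarith
        have he : exp (1 / 2) * exp s ≤ 6 := by
          rw [← exp_add]
          calc exp (1 / 2 + s) ≤ exp (3 / 2) := exp_le_exp.mpr (by linarith)
            _ ≤ 6 := by
              have h1 : exp (3 / 2) ^ 2 = exp 1 ^ 3 := by
                rw [← exp_nat_mul, ← exp_nat_mul]; norm_num
              have h3 : exp 1 ^ 3 ≤ 3 ^ 3 := pow_le_pow_left₀ (exp_pos _).le
                (by linarith [exp_one_lt_d9]) 3
              nlinarith [exp_pos (3 / 2 : ℝ)]
        calc (f (flip1 x i) - f x) ^ 2 = 4 * (cosh (p - w) ^ 2 * sinh w ^ 2) := by rw [e]; ring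
          _ ≤ 4 * ((exp s * (1 + f x ^ 2)) * (s ^ 2 / 4 * exp (1 / 2))) := by gcongr
          _ = (exp (1 / 2) * exp s) * (s ^ 2 * (1 + f x ^ 2)) := by ring
          _ ≤ 6 * (s ^ 2 * (1 + f x ^ 2)) := mul_le_mul_of_nonneg_right he (by positivity)
          _ = _ := by ring
      rw [dirichlet_eq]
      calc (1 / 2) * ∑ i, ∑ x, gibbs β g x * rate β g x i * (f (flip1 x i) - f x) ^ 2
          ≤ (1 / 2) * ∑ i : Fin N, ∑ x, gibbs β g x * (6 * s ^ 2 * (1 + f x ^ 2)) := by
            refine mul_le_mul_of_nonneg_left (Finset.sum_le_sum fun i _ =>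
              Finset.sum_le_sum fun x _ => ?_) (by norm_num)
            exact mul_le_mul (mul_le_of_le_one_right (gibbs_pos β g x).le (rate_le_one β g x i))
              (hstep x i) (sq_nonneg _) (gibbs_pos β g x).le
        _ = 3 * N * s ^ 2 * (1 + gibbsVar β g f) := by
            rw [hvar]
            simp only [expect, Finset.sum_const, Finset.card_univ, Fintype.card_fin, nsmul_eq_mul]
            have : ∑ x, gibbs β g x * (6 * s ^ 2 * (1 + f x ^ 2))
                = 6 * s ^ 2 * (1 + ∑ x, gibbs β g x * f x ^ 2) := by
              rw [show (6:ℝ) * s ^ 2 * (1 + ∑ x, gibbs β g x * f x ^ 2)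
                = 6 * s ^ 2 * ∑ x, gibbs β g x + 6 * s ^ 2 * ∑ x, gibbs β g x * f x ^ 2 by
                  rw [gibbs_sum]; ring, Finset.mul_sum, Finset.mul_sum, ← Finset.sum_add_distrib]
              exact Finset.sum_congr rfl fun x _ => by ring
            rw [this]; ring
    have hv1 : gibbsVar β g f ≤ 1 := by
      by_contra h
      push Not at h
      have := hno f hm (by linarith)
      have : 0 ≤ (N:ℝ) * s ^ 2 := by positivity
      nlinarith
    calc expect β g (fun x => exp (s * |overlap x y|))
        ≤ expect β g (fun x => 2 + 4 * f x ^ 2) := by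
          refine expect_mono β g fun x => ?_
          have h1 : exp (s * |overlap x y|) ≤ 2 * cosh (s * overlap x y) := by
            rw [← abs_of_nonneg hs0, ← abs_mul, abs_of_nonneg hs0]
            calc exp |s * overlap x y| ≤ exp (s * overlap x y) + exp (-(s * overlap x y)) := by
                  rcases abs_choice (s * overlap x y) with h | h <;> rw [h] <;>
                    linarith [exp_pos (s * overlap x y), exp_pos (-(s * overlap x y))]
              _ = _ := by rw [cosh_eq]; ring
          refine h1.trans (le_of_eq ?_)
          rw [show s * overlap x y = 2 * (s * overlap x y / 2) by ring, cosh_two_mul, cosh_sq]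
          simp only [hf]; ring_nf
      _ = 2 + 4 * gibbsVar β g f := by
          rw [hvar]
          simp only [expect, mul_add, Finset.sum_add_distrib, ← Finset.sum_mul, gibbs_sum,
            one_mul, Finset.mul_sum]
          congr 1
          exact Finset.sum_congr rfl fun x _ => by ring
      _ ≤ 6 := by linarith
  calc stat β g s = expect β g fun x => expect β g fun y => exp (s * |overlap x y|) := rfl
    _ ≤ expect β g fun _ => 6 := by
        refine expect_mono β g fun x => ?_
        have : ∀ y, overlap x y = overlap y x := fun y => by simp [overlap, mul_comm]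
        simp only [this]
        exact key x
    _ = 6 := expect_const β g 6

end Vale.Agent.P150
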