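import Vale.Agent.P150.Hyperbolic
import Vale.Agent.P150.Concentration

/-!
The effect of one additional site, for an arbitrary probability vector on configurations of the
other sites and Gaussian couplings to the additional site.
-/

namespace Vale.Agent.P150

open MeasureTheory ProbabilityTheory Real Finset

variable {n : ℕ} (ν : Conf n → ℝ) (a : ℝ)

/-- coefficient vector of the cavity field -/
def cv (ρ : Conf n) : Fin n → ℝ := fun k => a * spin (ρ k)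

/-- cavity partition function -/
noncomputable def Zc (g : Fin n → ℝ) : ℝ := ∑ ρ, ν ρ * cosh (dot (cv a ρ) g)

/-- double cavity sum -/
noncomputable def Kf (F : Conf n → Conf n → ℝ) (g : Fin n → ℝ) : ℝ :=
  ∑ ρ, ∑ σ, ν ρ * ν σ * F ρ σ * (cosh (dot (cv a ρ) g) * cosh (dot (cv a σ) g))

/-- first moments against the odd part -/
noncomputable def uf (j : Fin n) (g : Fin n → ℝ) : ℝ :=
  ∑ ρ, ν ρ * spin (ρ j) * sinh (dot (cv a ρ) g)

/-- correlations -/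
noncomputable def Cm (j k : Fin n) : ℝ := ∑ ρ, ν ρ * spin (ρ j) * spin (ρ k)

/-- squared Frobenius norm of the correlations -/
noncomputable def Wc : ℝ := ∑ ρ, ∑ σ, ν ρ * ν σ * overlap ρ σ ^ 2

/-- fourth moment -/
noncomputable def R4 : ℝ := ∑ ρ, ∑ σ, ν ρ * ν σ * overlap ρ σ ^ 4

/-- exponential statistic -/
noncomputable def Dc (s : ℝ) : ℝ := ∑ ρ, ∑ σ, ν ρ * ν σ * exp (s * |overlap ρ σ|)

/-- squared norm of the correlation matrix applied to a configuration -/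
noncomputable def ell (ρ : Conf n) : ℝ := ∑ j, (∑ k, Cm ν j k * spin (ρ k)) ^ 2

lemma sq2_cv (ρ : Conf n) : sq2 (cv a ρ) = a ^ 2 * n := by
  simp only [sq2, cv, mul_pow, sq (spin _), spin_sq, mul_one, Finset.sum_const, Finset.card_univ,
    Fintype.card_fin, nsmul_eq_mul]
  ring

lemma dot_cv (ρ σ : Conf n) : dot (cv a ρ) (cv a σ) = a ^ 2 * overlap ρ σ := by
  simp only [dot, cv, overlap, Finset.mul_sum]
  exact Finset.sum_congr rfl fun k _ => by ring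

lemma abs_overlap_le (ρ σ : Conf n) : |overlap ρ σ| ≤ n := by
  refine (abs_sum_le_sum_abs _ _).trans ?_
  simp [abs_mul, abs_spin]

lemma sum_Cm_sq : ∑ j, ∑ k, Cm ν j k ^ 2 = Wc ν := by
  simp only [Cm, Wc, overlap, sq, Finset.sum_mul_sum]
  simp only [Finset.mul_sum]
  rw [show ∑ j : Fin n, ∑ k : Fin n, ∑ ρ : Conf n, ∑ σ : Conf n,
      ν ρ * spin (ρ j) * spin (ρ k) * (ν σ * spin (σ j) * spin (σ k))
    = ∑ j : Fin n, ∑ ρ : Conf n, ∑ σ : Conf n, ∑ k : Fin n,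
      ν ρ * spin (ρ j) * spin (ρ k) * (ν σ * spin (σ j) * spin (σ k)) from
    Finset.sum_congr rfl fun j _ => by rw [Finset.sum_comm]; exact Finset.sum_congr rfl fun ρ _ => Finset.sum_comm]
  rw [Finset.sum_comm]
  refine Finset.sum_congr rfl fun ρ _ => ?_
  rw [Finset.sum_comm]
  refine Finset.sum_congr rfl fun σ _ => Finset.sum_congr rfl fun j _ =>
    Finset.sum_congr rfl fun k _ => by ring

lemma integrable_Zc : Integrable (Zc ν a) (gaussVec (Fin n)) :=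
  integrable_finsetSum _ fun _ _ => (integrable_cosh_dot _).const_mul _

lemma integrable_Kf (F : Conf n → Conf n → ℝ) : Integrable (Kf ν a F) (gaussVec (Fin n)) :=
  integrable_finsetSum _ fun _ _ => integrable_finsetSum _ fun _ _ =>
    (integrable_cc _ _).const_mul _

lemma integral_Kf (F : Conf n → Conf n → ℝ) :
    ∫ g, Kf ν a F g ∂gaussVec (Fin n)
      = exp (a ^ 2 * n) * ∑ ρ, ∑ σ, ν ρ * ν σ * F ρ σ * cosh (a ^ 2 * overlap ρ σ) := by
  unfold Kf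
  rw [integral_finsetSum _ fun _ _ => integrable_finsetSum _ fun _ _ =>
    (integrable_cc _ _).const_mul _, Finset.mul_sum]
  refine Finset.sum_congr rfl fun ρ _ => ?_
  rw [integral_finsetSum _ fun _ _ => (integrable_cc _ _).const_mul _, Finset.mul_sum]
  refine Finset.sum_congr rfl fun σ _ => ?_
  rw [integral_const_mul, integral_cc, sq2_cv, sq2_cv, dot_cv]
  ring_nf

lemma Zc_sq (g : Fin n → ℝ) : Zc ν a g ^ 2 = Kf ν a (fun _ _ => 1) g := by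
  rw [sq]; unfold Zc Kf; rw [Finset.sum_mul_sum]
  exact Finset.sum_congr rfl fun _ _ => Finset.sum_congr rfl fun _ _ => by ring

lemma one_le_Zc (hν : ∀ ρ, 0 ≤ ν ρ) (h1 : ∑ ρ, ν ρ = 1) (g : Fin n → ℝ) : 1 ≤ Zc ν a g := by
  rw [← h1]; exact Finset.sum_le_sum fun ρ _ => le_mul_of_one_le_right (hν ρ) (one_le_cosh _)

lemma sum_two (h1 : ∑ ρ, ν ρ = 1) : ∑ ρ, ∑ σ, ν ρ * ν σ = 1 := by
  rw [← Finset.sum_mul_sum, h1, one_mul]

lemma Kf_nonneg (hν : ∀ ρ, 0 ≤ ν ρ) {F : Conf n → Conf n → ℝ} (hF : ∀ ρ σ, 0 ≤ F ρ σ)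
    (g : Fin n → ℝ) : 0 ≤ Kf ν a F g :=
  Finset.sum_nonneg fun ρ _ => Finset.sum_nonneg fun σ _ =>
    mul_nonneg (mul_nonneg (mul_nonneg (hν ρ) (hν σ)) (hF ρ σ))
      (mul_nonneg (cosh_pos _).le (cosh_pos _).le)

lemma Dc_pos (hν : ∀ ρ, 0 ≤ ν ρ) (h1 : ∑ ρ, ν ρ = 1) {s : ℝ} (hs : 0 ≤ s) : 1 ≤ Dc ν s := by
  rw [← sum_two ν h1]
  exact Finset.sum_le_sum fun ρ _ => Finset.sum_le_sum fun σ _ =>
    le_mul_of_one_le_right (mul_nonneg (hν ρ) (hν σ)) (one_le_exp (mul_nonneg hs (abs_nonneg _)))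

lemma Wc_nonneg : 0 ≤ Wc ν := by
  rw [← sum_Cm_sq]; exact Finset.sum_nonneg fun _ _ => Finset.sum_nonneg fun _ _ => sq_nonneg _

lemma ell_le (ρ : Conf n) : ell ν ρ ≤ n * Wc ν := by
  rw [← sum_Cm_sq, Finset.mul_sum]
  refine Finset.sum_le_sum fun j _ => ?_
  refine (Finset.sum_mul_sq_le_sq_mul_sq _ _ _).trans (le_of_eq ?_)
  simp [sq, spin_sq, mul_comm]

lemma sum_ell_le {τ : ℝ} (hτ : 0 < τ) :
    ∑ ρ, ν ρ * ell ν ρ ≤ (τ * Wc ν + Wc ν ^ 2 / τ) / 2 := by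
  have e : ∑ ρ, ν ρ * ell ν ρ = ∑ k, ∑ l, Cm ν k l * ∑ j, Cm ν j k * Cm ν j l := by
    have : ∀ ρ, ν ρ * ell ν ρ
        = ∑ k, ∑ l, ∑ j, (ν ρ * spin (ρ k) * spin (ρ l)) * (Cm ν j k * Cm ν j l) := by
      intro ρ
      simp only [ell, sq]
      simp only [Finset.sum_mul_sum]
      simp only [Finset.mul_sum]
      rw [Finset.sum_comm]
      refine Finset.sum_congr rfl fun k _ => ?_
      rw [Finset.sum_comm]
      exact Finset.sum_congr rfl fun l _ => Finset.sum_congr rfl fun j _ => by ring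
    simp_rw [this]
    rw [Finset.sum_comm]
    refine Finset.sum_congr rfl fun k _ => ?_
    rw [Finset.sum_comm]
    refine Finset.sum_congr rfl fun l _ => ?_
    rw [Finset.sum_comm]
    simp only [← Finset.sum_mul, Finset.mul_sum]
    rfl
  have hP : ∑ k, ∑ l, (∑ j, Cm ν j k * Cm ν j l) ^ 2 ≤ Wc ν ^ 2 := by
    calc ∑ k, ∑ l, (∑ j, Cm ν j k * Cm ν j l) ^ 2
        ≤ ∑ k, ∑ l, (∑ j, Cm ν j k ^ 2) * (∑ j, Cm ν j l ^ 2) :=
          Finset.sum_le_sum fun k _ => Finset.sum_le_sum fun l _ =>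
            Finset.sum_mul_sq_le_sq_mul_sq _ _ _
      _ = Wc ν ^ 2 := by
          rw [← Finset.sum_mul_sum, Finset.sum_comm, sum_Cm_sq, sq]
  rw [e]
  calc ∑ k, ∑ l, Cm ν k l * ∑ j, Cm ν j k * Cm ν j l
      ≤ ∑ k, ∑ l, (τ * Cm ν k l ^ 2 + (∑ j, Cm ν j k * Cm ν j l) ^ 2 / τ) / 2 := by
        refine Finset.sum_le_sum fun k _ => Finset.sum_le_sum fun l _ => ?_
        rw [le_div_iff₀ two_pos]
        have h := sq_nonneg (τ * Cm ν k l - ∑ j, Cm ν j k * Cm ν j l)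
        rw [← mul_le_mul_iff_left₀ hτ, add_mul, div_mul_cancel₀ _ hτ.ne']
        linarith
    _ ≤ _ := by
        simp only [← Finset.sum_div, Finset.sum_add_distrib, ← Finset.mul_sum, sum_Cm_sq]
        gcongr

variable {ν a} {b Nr s ε lam P0 : ℝ}

/-- the common constant -/
noncomputable def Kc (b : ℝ) : ℝ := 100 * exp (10 * b + b ^ 2)

lemma consts (hb : 0 ≤ b) : 1 ≤ Kc b ∧
    b ^ 2 * exp (b ^ 2 / 2) + 2 * exp b * b ≤ Kc b / 10
    ∧ 3 * (exp (b ^ 2 / 2) + 4 * exp b * b) ≤ Kc b / 2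
    ∧ 3 * (exp b * exp (b ^ 2 / 2)) + exp (8 * b) + exp b * exp (b ^ 2 / 2) * b ^ 2 ≤ Kc b / 10
    ∧ b ^ 2 ≤ Kc b / 10 ∧ exp (b ^ 2 / 2) ≤ Kc b / 10 := by
  have hbe : b ≤ exp b := by linarith [add_one_le_exp b]
  have hb2 : b ^ 2 ≤ exp (2 * b) := by
    rw [show exp (2 * b) = exp b ^ 2 by rw [← exp_nat_mul]; norm_num]
    exact pow_le_pow_left₀ hb hbe 2
  have hq : 0 ≤ b ^ 2 := sq_nonneg b
  have le : ∀ x, x ≤ 10 * b + b ^ 2 → exp x ≤ exp (10 * b + b ^ 2) := fun x h => exp_le_exp.mpr h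
  have h0 : 1 ≤ exp (10 * b + b ^ 2) := one_le_exp (by positivity)
  have h1 : b ^ 2 * exp (b ^ 2 / 2) ≤ exp (10 * b + b ^ 2) := by
    refine (mul_le_mul_of_nonneg_right hb2 (exp_pos _).le).trans ?_
    rw [← exp_add]; exact le _ (by linarith)
  have h2 : exp b * b ≤ exp (10 * b + b ^ 2) := by
    refine (mul_le_mul_of_nonneg_left hbe (exp_pos _).le).trans ?_
    rw [← exp_add]; exact le _ (by linarith)
  have h3 : exp (b ^ 2 / 2) ≤ exp (10 * b + b ^ 2) := le _ (by linarith)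
  have h4 : exp b * exp (b ^ 2 / 2) ≤ exp (10 * b + b ^ 2) := by
    rw [← exp_add]; exact le _ (by linarith)
  have h5 : exp (8 * b) ≤ exp (10 * b + b ^ 2) := le _ (by linarith)
  have h6 : exp b * exp (b ^ 2 / 2) * b ^ 2 ≤ exp (10 * b + b ^ 2) := by
    refine (mul_le_mul_of_nonneg_left hb2 (by positivity)).trans ?_
    rw [← exp_add, ← exp_add]; exact le _ (by linarith)
  have h7 : b ^ 2 ≤ exp (10 * b + b ^ 2) := hb2.trans (le _ (by linarith))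
  unfold Kc
  refine ⟨?_, ?_, ?_, ?_, ?_, ?_⟩ <;> linarith

section
variable (hν : ∀ ρ, 0 ≤ ν ρ) (h1 : ∑ ρ, ν ρ = 1) (hb : a ^ 2 * n ≤ b)
include hν h1 hb

lemma abs_theta (ρ σ : Conf n) : |a ^ 2 * overlap ρ σ| ≤ b := by
  rw [abs_mul, abs_of_nonneg (sq_nonneg a)]
  exact (mul_le_mul_of_nonneg_left (abs_overlap_le ρ σ) (sq_nonneg a)).trans hb

lemma cosh_theta (ρ σ : Conf n) : cosh (a ^ 2 * overlap ρ σ) ≤ exp (b ^ 2 / 2) := by
  refine (cosh_le_exp_half_sq _).trans (exp_le_exp.mpr ?_)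
  have := pow_le_pow_left₀ (abs_nonneg _) (abs_theta hν h1 hb ρ σ) 2
  rw [sq_abs] at this; linarith

lemma cosh_theta_sum : ∑ ρ, ∑ σ, ν ρ * ν σ * cosh (a ^ 2 * overlap ρ σ)
    ≤ 1 + exp (b ^ 2 / 2) * (a ^ 2) ^ 2 * Wc ν / 2 := by
  rw [← sum_two ν h1, Wc, Finset.mul_sum, Finset.sum_div, ← Finset.sum_add_distrib]
  refine Finset.sum_le_sum fun ρ _ => ?_
  rw [Finset.mul_sum, Finset.sum_div, ← Finset.sum_add_distrib]
  refine Finset.sum_le_sum fun σ _ => ?_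
  have h := cosh_sub_one_le (abs_theta hν h1 hb ρ σ)
  have := mul_le_mul_of_nonneg_left h (mul_nonneg (hν ρ) (hν σ))
  rw [mul_pow] at this; linarith

lemma quad_bound (F : Conf n → Conf n → ℝ) (hF : ∀ ρ σ, 0 ≤ F ρ σ) :
    ∫ g, ∑ j, (dot (fun k => a / exp (a ^ 2 * n / 2) * Cm ν j k) g) ^ 2 * Kf ν a F g
        ∂gaussVec (Fin n)
      ≤ ∑ ρ, ∑ σ, ν ρ * ν σ * F ρ σ * (cosh (a ^ 2 * overlap ρ σ) * (a ^ 2 * Wc ν)
          + 2 * exp b * (a ^ 2) ^ 2 * (ell ν ρ + ell ν σ)) := by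
  set m := exp (a ^ 2 * n / 2) with hm
  set v : Fin n → Fin n → ℝ := fun j k => a / m * Cm ν j k with hv
  have hint : ∀ j ρ σ, Integrable (fun g => ν ρ * ν σ * F ρ σ *
      (dot (v j) g ^ 2 * (cosh (dot (cv a ρ) g) * cosh (dot (cv a σ) g)))) (gaussVec (Fin n)) :=
    fun j ρ σ => (integrable_quad_cc _ _ _).const_mul _
  have e : (fun g => ∑ j, dot (v j) g ^ 2 * Kf ν a F g) = fun g => ∑ ρ, ∑ σ, ∑ j,
      ν ρ * ν σ * F ρ σ * (dot (v j) g ^ 2 * (cosh (dot (cv a ρ) g) * cosh (dot (cv a σ) g))) := by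
    funext g
    simp only [Kf, Finset.mul_sum]
    rw [Finset.sum_comm]
    refine Finset.sum_congr rfl fun ρ _ => ?_
    rw [Finset.sum_comm]
    exact Finset.sum_congr rfl fun σ _ => Finset.sum_congr rfl fun j _ => by ring
  rw [show (fun g => ∑ j, dot (fun k => a / m * Cm ν j k) g ^ 2 * Kf ν a F g) = _ from e,
    integral_finsetSum _ fun ρ _ => integrable_finsetSum _ fun σ _ =>
      integrable_finsetSum _ fun j _ => hint j ρ σ]
  refine Finset.sum_le_sum fun ρ _ => ?_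
  rw [integral_finsetSum _ fun σ _ => integrable_finsetSum _ fun j _ => hint j ρ σ]
  refine Finset.sum_le_sum fun σ _ => ?_
  rw [integral_finsetSum _ fun j _ => hint j ρ σ]
  simp only [integral_const_mul, ← Finset.mul_sum]
  refine mul_le_mul_of_nonneg_left ?_ (mul_nonneg (mul_nonneg (hν ρ) (hν σ)) (hF ρ σ))
  simp only [integral_quad_cc, sq2_cv, dot_cv]
  have hm0 : 0 < m := exp_pos _
  have hmm : exp ((a ^ 2 * n + a ^ 2 * n) / 2) = m ^ 2 := by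
    rw [hm, ← exp_nat_mul]; norm_num; ring_nf
  rw [hmm]
  set d := a ^ 2 * overlap ρ σ
  have hd : ∀ (τ : Conf n) j, dot (v j) (cv a τ) = a ^ 2 / m * ∑ k, Cm ν j k * spin (τ k) := by
    intro τ j
    simp only [dot, hv, cv, Finset.mul_sum]
    exact Finset.sum_congr rfl fun k _ => by ring
  have hs : ∀ j, sq2 (v j) = a ^ 2 / m ^ 2 * ∑ k, Cm ν j k ^ 2 := by
    intro j
    simp only [sq2, hv, Finset.mul_sum]
    exact Finset.sum_congr rfl fun k _ => by ring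
  simp only [hd, hs]
  set P : Fin n → ℝ := fun j => ∑ k, Cm ν j k * spin (ρ k) with hP
  set Q : Fin n → ℝ := fun j => ∑ k, Cm ν j k * spin (σ k) with hQ
  have hcalc : ∑ j, m ^ 2 * ((a ^ 2 / m ^ 2 * ∑ k, Cm ν j k ^ 2 + (a ^ 2 / m * P j + a ^ 2 / m * Q j) ^ 2) * exp d
      + (a ^ 2 / m ^ 2 * ∑ k, Cm ν j k ^ 2 + (a ^ 2 / m * P j - a ^ 2 / m * Q j) ^ 2) * exp (-d)) / 2
      = cosh d * (a ^ 2 * Wc ν)
        + (a ^ 2) ^ 2 * ∑ j, ((P j + Q j) ^ 2 * exp d + (P j - Q j) ^ 2 * exp (-d)) / 2 := by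
    rw [← sum_Cm_sq, Finset.mul_sum, Finset.mul_sum, Finset.mul_sum, ← Finset.sum_add_distrib]
    refine Finset.sum_congr rfl fun j _ => ?_
    rw [cosh_eq]
    field_simp
    ring
  rw [hcalc, add_le_add_iff_left, mul_comm (2 * exp b) ((a ^ 2) ^ 2), mul_assoc]
  refine mul_le_mul_of_nonneg_left ?_ (sq_nonneg _)
  have hd1 : exp d ≤ exp b := exp_le_exp.mpr (le_of_abs_le (abs_theta hν h1 hb ρ σ))
  have hd2 : exp (-d) ≤ exp b := exp_le_exp.mpr (neg_le.mp (neg_le_of_abs_le (abs_theta hν h1 hb ρ σ)))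
  unfold ell
  rw [← Finset.sum_add_distrib, Finset.mul_sum]
  refine Finset.sum_le_sum fun j _ => ?_
  have h3 := mul_le_mul_of_nonneg_left hd1 (sq_nonneg (P j + Q j))
  have h4 := mul_le_mul_of_nonneg_left hd2 (sq_nonneg (P j - Q j))
  simp only [hP, hQ] at *
  nlinarith [exp_pos b]

variable (hN : a ^ 2 * Nr = b) (hNr : 0 < Nr) (hb0 : 0 ≤ b)
  (hε : 0 < ε) (hl : 0 ≤ lam) (hs0 : 0 ≤ s) (hs1 : s ≤ 1) (hP0 : 0 ≤ P0)
include hN hNr hb0 hε hl hs0 hs1 hP0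

lemma quad_one {v : Fin n → Fin n → ℝ}
    (hv : v = fun j k => a / exp (a ^ 2 * n / 2) * Cm ν j k) :
    ∫ g, ∑ j, dot (v j) g ^ 2 * Kf ν a (fun _ _ => 1) g ∂gaussVec (Fin n)
      ≤ a ^ 2 * Wc ν * (1 + (b ^ 2 * exp (b ^ 2 / 2) + 2 * exp b * b) * (ε + Wc ν / Nr ^ 2 / ε)
        + exp (b ^ 2 / 2) * b ^ 2 * (Wc ν / Nr ^ 2)) := by
  have T1 := quad_bound hν h1 hb (fun _ _ => 1) (fun _ _ => zero_le_one)
  have hW := Wc_nonneg ν
  subst hv
  refine T1.trans ?_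
  have e : ∑ ρ, ∑ σ, ν ρ * ν σ * 1 * (cosh (a ^ 2 * overlap ρ σ) * (a ^ 2 * Wc ν)
      + 2 * exp b * (a ^ 2) ^ 2 * (ell ν ρ + ell ν σ))
      = (∑ ρ, ∑ σ, ν ρ * ν σ * cosh (a ^ 2 * overlap ρ σ)) * (a ^ 2 * Wc ν)
        + 4 * exp b * (a ^ 2) ^ 2 * ∑ ρ, ν ρ * ell ν ρ := by
    have h2 : ∑ ρ, ∑ σ, ν ρ * ν σ * (ell ν ρ + ell ν σ) = 2 * ∑ ρ, ν ρ * ell ν ρ := by
      have hA : ∑ ρ, ∑ σ, ν ρ * ν σ * ell ν ρ = ∑ ρ, ν ρ * ell ν ρ :=
        Finset.sum_congr rfl fun ρ _ => by rw [← Finset.sum_mul, ← Finset.mul_sum, h1, mul_one]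
      have hB : ∑ ρ, ∑ σ, ν ρ * ν σ * ell ν σ = ∑ ρ, ν ρ * ell ν ρ := by
        simp only [mul_assoc, ← Finset.mul_sum]; rw [← Finset.sum_mul, h1, one_mul]
      simp only [mul_add, Finset.sum_add_distrib, hA, hB]; ring
    rw [show (4:ℝ) * exp b * (a ^ 2) ^ 2 * ∑ ρ, ν ρ * ell ν ρ
        = (2 * exp b * (a ^ 2) ^ 2) * ∑ ρ, ∑ σ, ν ρ * ν σ * (ell ν ρ + ell ν σ) by rw [h2]; ring,
      Finset.mul_sum, Finset.sum_mul, ← Finset.sum_add_distrib]
    refine Finset.sum_congr rfl fun ρ _ => ?_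
    rw [Finset.mul_sum, Finset.sum_mul, ← Finset.sum_add_distrib]
    exact Finset.sum_congr rfl fun σ _ => by ring
  rw [e]
  have hc := cosh_theta_sum hν h1 hb
  have hl' := sum_ell_le ν (mul_pos hε hNr)
  calc _ ≤ (1 + exp (b ^ 2 / 2) * (a ^ 2) ^ 2 * Wc ν / 2) * (a ^ 2 * Wc ν)
        + 4 * exp b * (a ^ 2) ^ 2 * ((ε * Nr * Wc ν + Wc ν ^ 2 / (ε * Nr)) / 2) := by gcongr
    _ = a ^ 2 * Wc ν * (1 + (2 * exp b * b) * (ε + Wc ν / Nr ^ 2 / ε)
          + exp (b ^ 2 / 2) * b ^ 2 * (Wc ν / Nr ^ 2) / 2) := by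
        rw [← hN]; field_simp; ring
    _ ≤ _ := by
        have i1 : 2 * exp b * b * (ε + Wc ν / Nr ^ 2 / ε)
            ≤ (b ^ 2 * exp (b ^ 2 / 2) + 2 * exp b * b) * (ε + Wc ν / Nr ^ 2 / ε) :=
          mul_le_mul_of_nonneg_right (le_add_of_nonneg_left (by positivity)) (by positivity)
        have i2 : 0 ≤ exp (b ^ 2 / 2) * b ^ 2 * (Wc ν / Nr ^ 2) := by positivity
        exact mul_le_mul_of_nonneg_left (by linarith) (by positivity)

lemma quad_F {v : Fin n → Fin n → ℝ}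
    (hv : v = fun j k => a / exp (a ^ 2 * n / 2) * Cm ν j k) :
    (lam * exp s / Dc ν s) * ∫ g, ∑ j, dot (v j) g ^ 2 * Kf ν a (fun ρ σ => exp (s * |overlap ρ σ|)) g ∂gaussVec (Fin n)
      ≤ a ^ 2 * Wc ν * (lam * (3 * (exp (b ^ 2 / 2) + 4 * exp b * b))) := by
  subst hv
  set F : Conf n → Conf n → ℝ := fun ρ σ => exp (s * |overlap ρ σ|) with hF
  have T2 := quad_bound hν h1 hb F (fun _ _ => (exp_pos _).le)
  have hW := Wc_nonneg ν
  set c0 := lam * exp s / Dc ν s with hc0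
  have hD := Dc_pos ν hν h1 hs0
  have hc00 : 0 ≤ c0 := by positivity
  have h : ∫ g, ∑ j, dot ((fun j k => a / exp (a ^ 2 * n / 2) * Cm ν j k) j) g ^ 2 * Kf ν a F g ∂gaussVec (Fin n)
      ≤ Dc ν s * (a ^ 2 * Wc ν * (exp (b ^ 2 / 2) + 4 * exp b * b)) := by
    refine T2.trans ?_
    rw [Dc, Finset.sum_mul]
    refine Finset.sum_le_sum fun ρ _ => ?_
    rw [Finset.sum_mul]
    refine Finset.sum_le_sum fun σ _ => ?_
    refine mul_le_mul_of_nonneg_left ?_ (by have := hν ρ; have := hν σ; positivity)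
    have h2 := cosh_theta hν h1 hb ρ σ
    have h3 : (a ^ 2) ^ 2 * (ell ν ρ + ell ν σ) ≤ 2 * b * (a ^ 2 * Wc ν) := by
      calc (a ^ 2) ^ 2 * (ell ν ρ + ell ν σ) ≤ (a ^ 2) ^ 2 * (n * Wc ν + n * Wc ν) := by
            gcongr <;> exact ell_le ν _
        _ = 2 * (a ^ 2 * n) * (a ^ 2 * Wc ν) := by ring
        _ ≤ _ := by gcongr
    nlinarith [exp_pos b, mul_le_mul_of_nonneg_right h2 (by positivity : 0 ≤ a ^ 2 * Wc ν),
      mul_le_mul_of_nonneg_left h3 (by positivity : (0:ℝ) ≤ 2 * exp b)]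
  have he : exp s ≤ 3 := (exp_le_exp.mpr hs1).trans (by linarith [exp_one_lt_d9])
  calc _ ≤ c0 * (Dc ν s * (a ^ 2 * Wc ν * (exp (b ^ 2 / 2) + 4 * exp b * b))) :=
        mul_le_mul_of_nonneg_left h hc00
    _ = lam * exp s * (a ^ 2 * Wc ν * (exp (b ^ 2 / 2) + 4 * exp b * b)) := by
        rw [hc0]; field_simp
    _ ≤ lam * 3 * (a ^ 2 * Wc ν * (exp (b ^ 2 / 2) + 4 * exp b * b)) := by gcongr
    _ = _ := by ring

theorem cavity_lower (hε1 : ε ≤ 1) (ψ : (Fin n → ℝ) → ℝ) (hψ0 : ∀ g, 0 ≤ ψ g)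
    (hi : Integrable (fun g => ψ g * ∑ j, (uf ν a j g / Zc ν a g) ^ 2) (gaussVec (Fin n)))
    (hψ : ∀ g, P0 ≤ ψ g *
      (1 + lam * exp s * Kf ν a (fun ρ σ => exp (s * |overlap ρ σ|)) g / (Dc ν s * Zc ν a g ^ 2))) :
    P0 * (a ^ 2 * Wc ν * (1 - Kc b * (ε + lam + Wc ν / Nr ^ 2 / ε)))
      ≤ ∫ g, ψ g * ∑ j, (uf ν a j g / Zc ν a g) ^ 2 ∂gaussVec (Fin n) := by
  set F : Conf n → Conf n → ℝ := fun ρ σ => exp (s * |overlap ρ σ|) with hF
  set m := exp (a ^ 2 * n / 2) with hm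
  have hm0 : 0 < m := exp_pos _
  set v : Fin n → Fin n → ℝ := fun j k => a / m * Cm ν j k with hv
  set c0 := lam * exp s / Dc ν s with hc0
  have hD := Dc_pos ν hν h1 hs0
  have hc00 : 0 ≤ c0 := by positivity
  have hpt : ∀ g, P0 * (∑ j, 2 * (dot (v j) g * uf ν a j g)
      - ((∑ j, dot (v j) g ^ 2 * Kf ν a (fun _ _ => 1) g) + c0 * ∑ j, dot (v j) g ^ 2 * Kf ν a F g))
      ≤ ψ g * ∑ j, (uf ν a j g / Zc ν a g) ^ 2 := by
    intro g
    rw [Finset.mul_sum, ← Finset.sum_add_distrib, ← Finset.sum_sub_distrib, Finset.mul_sum,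
      Finset.mul_sum]
    refine Finset.sum_le_sum fun j _ => ?_
    set Z := Zc ν a g
    have hZ : 0 < Z := lt_of_lt_of_le one_pos (one_le_Zc ν a hν h1 g)
    have hY : 0 ≤ Kf ν a F g := Kf_nonneg ν a hν (fun _ _ => (exp_pos _).le) g
    set w := dot (v j) g
    set u := uf ν a j g
    rw [← Zc_sq]
    set d := 1 + lam * exp s * Kf ν a F g / (Dc ν s * Z ^ 2) with hd
    have hd1 : 0 < d := by positivity
    have e : Z ^ 2 + c0 * Kf ν a F g = Z ^ 2 * d := by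
      rw [hd, hc0]; field_simp
    have key : 2 * (w * u) - (w ^ 2 * Z ^ 2 + c0 * (w ^ 2 * Kf ν a F g)) ≤ (u / Z) ^ 2 / d := by
      have e2 : w ^ 2 * Z ^ 2 + c0 * (w ^ 2 * Kf ν a F g) = w ^ 2 * (Z ^ 2 * d) := by
        rw [← e]; ring
      rw [e2, div_pow, div_div, le_div_iff₀ (by positivity)]
      nlinarith [sq_nonneg (u - w * (Z ^ 2 * d))]
    calc P0 * (2 * (w * u) - (w ^ 2 * Z ^ 2 + c0 * (w ^ 2 * Kf ν a F g)))
        ≤ P0 * ((u / Z) ^ 2 / d) := mul_le_mul_of_nonneg_left key hP0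
      _ ≤ (ψ g * d) * ((u / Z) ^ 2 / d) := mul_le_mul_of_nonneg_right (hψ g) (by positivity)
      _ = ψ g * (u / Z) ^ 2 := by field_simp
  have iA : ∀ j, Integrable (fun g => 2 * (dot (v j) g * uf ν a j g)) (gaussVec (Fin n)) := by
    intro j
    simp only [uf, Finset.mul_sum]
    refine integrable_finsetSum _ fun ρ _ => ?_
    refine ((integrable_lin_sinh (cv a ρ) (v j)).const_mul (2 * (ν ρ * spin (ρ j)))).congr
      (Filter.Eventually.of_forall fun g => by ring)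
  have iB : ∀ (G : Conf n → Conf n → ℝ) j,
      Integrable (fun g => dot (v j) g ^ 2 * Kf ν a G g) (gaussVec (Fin n)) := by
    intro G j
    simp only [Kf, Finset.mul_sum]
    refine integrable_finsetSum _ fun ρ _ => integrable_finsetSum _ fun σ _ => ?_
    exact ((integrable_quad_cc (cv a ρ) (cv a σ) (v j)).const_mul (ν ρ * ν σ * G ρ σ)).congr
      (Filter.Eventually.of_forall fun g => by ring)
  have i1 := integrable_finsetSum univ fun j _ => iA j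
  have i2 := integrable_finsetSum univ fun j _ => iB (fun _ _ => 1) j
  have i3 := (integrable_finsetSum univ fun j _ => iB F j).const_mul c0
  have hmono := integral_mono ((i1.sub (i2.add i3)).const_mul P0) hi hpt
  simp only [Pi.sub_apply, Pi.add_apply] at hmono
  have hi23 : Integrable (fun g => (∑ j, dot (v j) g ^ 2 * Kf ν a (fun _ _ => 1) g)
      + c0 * ∑ j, dot (v j) g ^ 2 * Kf ν a F g) (gaussVec (Fin n)) := i2.add i3
  rw [integral_const_mul, integral_sub i1 hi23, integral_add i2 i3,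
    integral_const_mul] at hmono
  have E1 : ∫ g, ∑ j, 2 * (dot (v j) g * uf ν a j g) ∂gaussVec (Fin n) = 2 * (a ^ 2 * Wc ν) := by
    rw [integral_finsetSum _ fun j _ => iA j, ← sum_Cm_sq, Finset.mul_sum, Finset.mul_sum]
    refine Finset.sum_congr rfl fun j _ => ?_
    have : (fun g => 2 * (dot (v j) g * uf ν a j g)) = fun g => ∑ ρ,
        2 * (ν ρ * spin (ρ j)) * (dot (v j) g * sinh (dot (cv a ρ) g)) := by
      funext g; simp only [uf, Finset.mul_sum]; exact Finset.sum_congr rfl fun ρ _ => by ring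
    rw [this, integral_finsetSum _ fun ρ _ => (integrable_lin_sinh _ _).const_mul _]
    simp only [integral_const_mul, integral_lin_sinh, sq2_cv, ← hm]
    simp only [dot, hv, cv, Finset.sum_mul, Finset.mul_sum]
    rw [Finset.sum_comm]
    refine Finset.sum_congr rfl fun k _ => ?_
    have e : ∀ ρ, 2 * (ν ρ * spin (ρ j)) * (a / m * Cm ν j k * (a * spin (ρ k)) * m)
        = 2 * (a ^ 2 * Cm ν j k) * (ν ρ * spin (ρ j) * spin (ρ k)) := by
      intro ρ; field_simp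
    simp only [e, ← Finset.mul_sum]
    simp only [Cm]; ring
  rw [E1] at hmono
  have hW := Wc_nonneg ν
  have T1' := quad_one (v := v) hν h1 hb hN hNr hb0 hε hl hs0 hs1 hP0 rfl
  have T2' := quad_F (v := v) hν h1 hb hN hNr hb0 hε hl hs0 hs1 hP0 rfl
  refine le_trans ?_ hmono
  refine mul_le_mul_of_nonneg_left ?_ hP0
  obtain ⟨k1, k2, k3, k4, k5, k6⟩ := consts hb0
  set X := Wc ν / Nr ^ 2 with hX
  have hX0 : 0 ≤ X := by positivity
  have hX1 : X ≤ ε + X / ε := by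
    have : X ≤ X / ε := by rw [le_div_iff₀ hε]; exact mul_le_of_le_one_right hX0 hε1
    linarith
  have a1 := mul_le_mul_of_nonneg_left hX1 (by positivity : (0:ℝ) ≤ exp (b ^ 2 / 2) * b ^ 2)
  have a2 : 0 ≤ ε + X / ε := by positivity
  have a3 := mul_le_mul_of_nonneg_right k2 a2
  have a4 := mul_le_mul_of_nonneg_right k3 hl
  have a5 : 0 ≤ exp b * b := by positivity
  have hW' : 0 ≤ a ^ 2 * Wc ν := by positivity
  have fin : 1 - Kc b * (ε + lam + X / ε) ≤ 2 - (1 + (b ^ 2 * exp (b ^ 2 / 2) + 2 * exp b * b) * (ε + X / ε)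
      + exp (b ^ 2 / 2) * b ^ 2 * X) - lam * (3 * (exp (b ^ 2 / 2) + 4 * exp b * b)) := by
    nlinarith [mul_nonneg a5 a2, mul_nonneg (by linarith : (0:ℝ) ≤ Kc b) a2, mul_nonneg (by linarith : (0:ℝ) ≤ Kc b) hl]
  have := mul_le_mul_of_nonneg_left fin hW'
  linarith

lemma sum_r2_cosh : (∑ ρ, ∑ σ, ν ρ * ν σ * overlap ρ σ ^ 2 * cosh (a ^ 2 * overlap ρ σ))
      ≤ Wc ν + exp (b ^ 2 / 2) * (a ^ 2) ^ 2 * R4 ν
    ∧ (∑ ρ, ∑ σ, ν ρ * ν σ * overlap ρ σ ^ 2 * cosh (a ^ 2 * overlap ρ σ)) ≤ exp (b ^ 2 / 2) * Wc ν := by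
  set r2 : Conf n → Conf n → ℝ := fun ρ σ => overlap ρ σ ^ 2 with hr2
  set E1 := exp (b ^ 2 / 2) with hE1
  set Θ := a ^ 2 with hΘ
  set S := ∑ ρ, ∑ σ, ν ρ * ν σ * r2 ρ σ * cosh (Θ * overlap ρ σ) with hS
  have hS1 : S ≤ Wc ν + E1 * Θ ^ 2 * R4 ν := by
    rw [hS, Wc, R4, Finset.mul_sum, ← Finset.sum_add_distrib]
    refine Finset.sum_le_sum fun ρ _ => ?_
    rw [Finset.mul_sum, ← Finset.sum_add_distrib]
    refine Finset.sum_le_sum fun σ _ => ?_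
    have h := cosh_sub_one_le (abs_theta hν h1 hb ρ σ)
    have hc : 0 ≤ ν ρ * ν σ * r2 ρ σ := mul_nonneg (mul_nonneg (hν ρ) (hν σ)) (sq_nonneg _)
    have h' := mul_le_mul_of_nonneg_left h hc
    have : 0 ≤ ν ρ * ν σ * r2 ρ σ * ((Θ * overlap ρ σ) ^ 2 * E1) :=
      mul_nonneg hc (mul_nonneg (sq_nonneg _) (exp_pos _).le)
    simp only [hr2] at *
    linarith
  have hS2 : S ≤ E1 * Wc ν := by
    rw [hS, Wc, Finset.mul_sum]
    refine Finset.sum_le_sum fun ρ _ => ?_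
    rw [Finset.mul_sum]
    refine Finset.sum_le_sum fun σ _ => ?_
    rw [mul_comm E1]
    exact mul_le_mul_of_nonneg_left (cosh_theta hν h1 hb ρ σ)
      (mul_nonneg (mul_nonneg (hν ρ) (hν σ)) (sq_nonneg _))
  exact ⟨hS1, hS2⟩

lemma sq_term : ∫ g, ∑ ρ, ∑ σ, ν ρ * ν σ * overlap ρ σ ^ 2
      * (ε * (cosh (dot (cv a ρ) g) * cosh (dot (cv a σ) g)) ^ 2) ∂gaussVec (Fin n)
      ≤ ε * exp (8 * b) * Wc ν := by
  set r2 : Conf n → Conf n → ℝ := fun ρ σ => overlap ρ σ ^ 2 with hr2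
  rw [integral_finsetSum _ fun ρ _ => integrable_finsetSum _ fun σ _ =>
    ((integrable_cc_sq _ _).const_mul ε).const_mul _, Wc, Finset.mul_sum]
  refine Finset.sum_le_sum fun ρ _ => ?_
  rw [integral_finsetSum _ fun σ _ => ((integrable_cc_sq _ _).const_mul ε).const_mul _,
    Finset.mul_sum]
  refine Finset.sum_le_sum fun σ _ => ?_
  rw [integral_const_mul, integral_const_mul, mul_comm (ε * exp (8 * b))]
  refine mul_le_mul_of_nonneg_left ?_ (mul_nonneg (mul_nonneg (hν ρ) (hν σ)) (sq_nonneg _))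
  refine mul_le_mul_of_nonneg_left ((integral_cc_sq_le _ _).trans ?_) hε.le
  rw [sq2_cv, sq2_cv]
  have : exp (8 * (a ^ 2 * n)) ≤ exp (8 * b) := exp_le_exp.mpr (by linarith)
  linarith

lemma Z_var : ∫ g, (Zc ν a g - exp (a ^ 2 * n / 2)) ^ 2 / ε ∂gaussVec (Fin n) ≤ exp b * exp (b ^ 2 / 2) * b ^ 2 * (Wc ν / Nr ^ 2 / ε) := by
  set m := exp (a ^ 2 * n / 2) with hm
  have hm2 : m ^ 2 = exp (a ^ 2 * n) := by rw [hm, ← exp_nat_mul]; push_cast; ring_nf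
  set E := fun g => (Zc ν a g - m) ^ 2 / ε with hE
  set E1 := exp (b ^ 2 / 2) with hE1
  set Θ := a ^ 2 with hΘ
  have hmb : m ^ 2 ≤ exp b := hm2 ▸ exp_le_exp.mpr hb
  have hW := Wc_nonneg ν
  have iZ2 : Integrable (fun g => Zc ν a g ^ 2) (gaussVec (Fin n)) := by
    simp_rw [Zc_sq]; exact integrable_Kf ν a _
  have eE : E = fun g => (Zc ν a g ^ 2 - 2 * m * Zc ν a g + m ^ 2) / ε := by funext g; simp only [hE]; ring
  change ∫ g, E g ∂gaussVec (Fin n) ≤ _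
  have hZ : ∫ g, Zc ν a g ∂gaussVec (Fin n) = m := by
    unfold Zc
    rw [integral_finsetSum _ fun _ _ => (integrable_cosh_dot _).const_mul _]
    simp only [integral_const_mul, integral_cosh_dot, sq2_cv, ← hΘ, ← hm, ← Finset.sum_mul, h1,
      one_mul]
  have hZ2 : ∫ g, Zc ν a g ^ 2 ∂gaussVec (Fin n) ≤ m ^ 2 * (1 + E1 * Θ ^ 2 * Wc ν / 2) := by
    simp_rw [Zc_sq]
    rw [integral_Kf, hm2]
    refine mul_le_mul_of_nonneg_left ?_ (exp_pos _).le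
    simpa using cosh_theta_sum hν h1 hb
  have i2 : Integrable (fun g => 2 * m * Zc ν a g) (gaussVec (Fin n)) :=
    (integrable_Zc ν a).const_mul _
  have i12 : Integrable (fun g => Zc ν a g ^ 2 - 2 * m * Zc ν a g) (gaussVec (Fin n)) := iZ2.sub i2
  rw [eE, integral_div, integral_add i12 (integrable_const _), integral_sub iZ2 i2,
    integral_const_mul, hZ, integral_const, probReal_univ, one_smul, ← mul_div_assoc]
  gcongr
  have e : exp b * E1 * b ^ 2 * (Wc ν / Nr ^ 2) = exp b * (E1 * Θ ^ 2 * Wc ν) := by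
    rw [← hN]; field_simp
  rw [e]
  have h0 : 0 ≤ E1 * Θ ^ 2 * Wc ν := by positivity
  have := mul_le_mul_of_nonneg_right hmb h0
  have : 0 ≤ m ^ 2 * (E1 * Θ ^ 2 * Wc ν) := by positivity
  linarith

lemma upper_pointwise (g : Fin n → ℝ) :
    (1 + lam * exp s * Zc ν a g ^ 2) * Kf ν a (fun ρ σ => overlap ρ σ ^ 2) g / Zc ν a g ^ 2
      ≤ (lam * exp s + 1 / exp (a ^ 2 * n / 2) ^ 2) * Kf ν a (fun ρ σ => overlap ρ σ ^ 2) g
      + ((∑ ρ, ∑ σ, ν ρ * ν σ * overlap ρ σ ^ 2 * (ε * (cosh (dot (cv a ρ) g) * cosh (dot (cv a σ) g)) ^ 2))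
        + ((Zc ν a g - exp (a ^ 2 * n / 2)) ^ 2 / ε) * Wc ν) := by
  set m := exp (a ^ 2 * n / 2) with hm
  have hm1 : 1 ≤ m := one_le_exp (by positivity)
  set c1 := lam * exp s + 1 / m ^ 2 with hc1
  set r2 : Conf n → Conf n → ℝ := fun ρ σ => overlap ρ σ ^ 2 with hr2
  set E := fun g => (Zc ν a g - m) ^ 2 / ε with hE
  set Z := Zc ν a g
  have hZ : 1 ≤ Z := one_le_Zc ν a hν h1 g
  have hK : 0 ≤ Kf ν a r2 g := Kf_nonneg ν a hν (fun _ _ => sq_nonneg _) g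
  have h2 : 1 / Z ^ 2 ≤ 1 / m ^ 2 + 2 * |Z - m| := by
    rw [← sub_le_iff_le_add', div_sub_div _ _ (by positivity) (by positivity),
      div_le_iff₀ (by positivity), one_mul, mul_one]
    have e : m ^ 2 - Z ^ 2 = (m - Z) * (m + Z) := by ring
    have h3 : (m - Z) * (m + Z) ≤ |Z - m| * (m + Z) := by
      refine mul_le_mul_of_nonneg_right ?_ (by linarith)
      rw [abs_sub_comm]; exact le_abs_self _
    have h4 : m + Z ≤ 2 * (Z ^ 2 * m ^ 2) := by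
      have q1 : Z ≤ Z ^ 2 * m ^ 2 := by
        calc Z = Z * 1 := (mul_one Z).symm
          _ ≤ Z * (Z * m ^ 2) := mul_le_mul_of_nonneg_left (one_le_mul_of_one_le_of_one_le hZ (one_le_pow₀ hm1)) (by linarith)
          _ = _ := by ring
      have q2 : m ≤ Z ^ 2 * m ^ 2 := by
        calc m = m * 1 := (mul_one m).symm
          _ ≤ m * (m * Z ^ 2) := mul_le_mul_of_nonneg_left (one_le_mul_of_one_le_of_one_le hm1 (one_le_pow₀ hZ)) (by linarith)
          _ = _ := by ring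
      linarith
    have := mul_le_mul_of_nonneg_left h4 (abs_nonneg (Z - m))
    linarith [e]
  have e1 : (1 + lam * exp s * Z ^ 2) * Kf ν a r2 g / Z ^ 2
      = (lam * exp s + 1 / Z ^ 2) * Kf ν a r2 g := by field_simp; ring
  rw [e1]
  have hk : 2 * |Z - m| * Kf ν a r2 g ≤ (∑ ρ, ∑ σ, ν ρ * ν σ * r2 ρ σ
      * (ε * (cosh (dot (cv a ρ) g) * cosh (dot (cv a σ) g)) ^ 2)) + E g * Wc ν := by
    rw [Kf, Wc, Finset.mul_sum, Finset.mul_sum, ← Finset.sum_add_distrib]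
    refine Finset.sum_le_sum fun ρ _ => ?_
    rw [Finset.mul_sum, Finset.mul_sum, ← Finset.sum_add_distrib]
    refine Finset.sum_le_sum fun σ _ => ?_
    set C := cosh (dot (cv a ρ) g) * cosh (dot (cv a σ) g)
    have key : 2 * |Z - m| * C ≤ ε * C ^ 2 + (Z - m) ^ 2 / ε := by
      rw [← mul_le_mul_iff_left₀ hε, add_mul, div_mul_cancel₀ _ hε.ne', ← sq_abs (Z - m)]
      nlinarith [sq_nonneg (ε * C - |Z - m|)]
    have := mul_le_mul_of_nonneg_left key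
      (mul_nonneg (mul_nonneg (hν ρ) (hν σ)) (sq_nonneg (overlap ρ σ)))
    simp only [hE, hr2]; linarith
  have := mul_le_mul_of_nonneg_right h2 hK
  rw [hc1]; linarith

theorem cavity_upper (φ : (Fin n → ℝ) → ℝ) (hi : Integrable φ (gaussVec (Fin n)))
    (hφ : ∀ g, φ g ≤ P0 * ((1 + lam * exp s * Zc ν a g ^ 2)
      * Kf ν a (fun ρ σ => overlap ρ σ ^ 2) g / Zc ν a g ^ 2)) :
    ∫ g, φ g ∂gaussVec (Fin n)
      ≤ P0 * (Wc ν * (1 + Kc b * (ε + lam + Wc ν / Nr ^ 2 / ε))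
        + Kc b * (a ^ 2) ^ 2 * R4 ν) := by
  set m := exp (a ^ 2 * n / 2) with hm
  have hm1 : 1 ≤ m := one_le_exp (by positivity)
  have hm2 : m ^ 2 = exp (a ^ 2 * n) := by rw [hm, ← exp_nat_mul]; push_cast; ring_nf
  set c1 := lam * exp s + 1 / m ^ 2 with hc1
  set r2 : Conf n → Conf n → ℝ := fun ρ σ => overlap ρ σ ^ 2 with hr2
  set E := fun g => (Zc ν a g - m) ^ 2 / ε with hE
  have hpt : ∀ g, φ g ≤ P0 * (c1 * Kf ν a r2 g
      + ((∑ ρ, ∑ σ, ν ρ * ν σ * r2 ρ σ * (ε * (cosh (dot (cv a ρ) g) * cosh (dot (cv a σ) g)) ^ 2))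
        + E g * Wc ν)) := fun g =>
    (hφ g).trans (mul_le_mul_of_nonneg_left (upper_pointwise hν h1 hb hN hNr hb0 hε hl hs0 hs1 hP0 g) hP0)
  have iZ2 : Integrable (fun g => Zc ν a g ^ 2) (gaussVec (Fin n)) := by
    simp_rw [Zc_sq]; exact integrable_Kf ν a _
  have eE : E = fun g => (Zc ν a g ^ 2 - 2 * m * Zc ν a g + m ^ 2) / ε := by funext g; simp only [hE]; ring
  have iE : Integrable E (gaussVec (Fin n)) := by
    rw [eE]; exact ((iZ2.sub ((integrable_Zc ν a).const_mul _)).add (integrable_const _)).div_const _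
  have iS : Integrable (fun g => ∑ ρ, ∑ σ, ν ρ * ν σ * r2 ρ σ
      * (ε * (cosh (dot (cv a ρ) g) * cosh (dot (cv a σ) g)) ^ 2)) (gaussVec (Fin n)) :=
    integrable_finsetSum _ fun ρ _ => integrable_finsetSum _ fun σ _ =>
      ((integrable_cc_sq _ _).const_mul ε).const_mul _
  have iR := (((integrable_Kf ν a r2).const_mul c1).add (iS.add (iE.mul_const (Wc ν)))).const_mul P0
  have hmono := integral_mono hi iR hpt
  simp only [Pi.add_apply] at hmono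
  have iSE : Integrable (fun g => (∑ ρ, ∑ σ, ν ρ * ν σ * r2 ρ σ
      * (ε * (cosh (dot (cv a ρ) g) * cosh (dot (cv a σ) g)) ^ 2)) + E g * Wc ν)
      (gaussVec (Fin n)) := iS.add (iE.mul_const _)
  rw [integral_const_mul, integral_add ((integrable_Kf ν a r2).const_mul c1) iSE,
    integral_add iS (iE.mul_const _), integral_const_mul, integral_mul_const, integral_Kf] at hmono
  refine hmono.trans (mul_le_mul_of_nonneg_left ?_ hP0)
  have hW := Wc_nonneg ν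
  set E1 := exp (b ^ 2 / 2) with hE1
  set Θ := a ^ 2 with hΘ
  have hΘ0 : 0 ≤ Θ := sq_nonneg a
  have hmb : m ^ 2 ≤ exp b := hm2 ▸ exp_le_exp.mpr hb
  set S := ∑ ρ, ∑ σ, ν ρ * ν σ * r2 ρ σ * cosh (Θ * overlap ρ σ) with hS
  obtain ⟨hS1, hS2⟩ := sum_r2_cosh hν h1 hb hN hNr hb0 hε hl hs0 hs1 hP0
  have hS0 : 0 ≤ S := Finset.sum_nonneg fun ρ _ => Finset.sum_nonneg fun σ _ =>
    mul_nonneg (mul_nonneg (mul_nonneg (hν ρ) (hν σ)) (sq_nonneg _)) (cosh_pos _).le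
  have B1 : c1 * (exp (Θ * n) * S)
      ≤ Wc ν + E1 * Θ ^ 2 * R4 ν + lam * (3 * (exp b * E1)) * Wc ν := by
    have he : exp s ≤ 3 := (exp_le_exp.mpr hs1).trans (by linarith [exp_one_lt_d9])
    have e : c1 * (exp (Θ * n) * S) = S + lam * exp s * m ^ 2 * S := by
      rw [← hm2, hc1]; field_simp; ring
    have : lam * exp s * m ^ 2 * S ≤ lam * 3 * exp b * (E1 * Wc ν) := by gcongr
    rw [e]; linarith
  have B2 := sq_term hν h1 hb hN hNr hb0 hε hl hs0 hs1 hP0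
  have B3 : ∫ g, E g ∂gaussVec (Fin n) ≤ exp b * E1 * b ^ 2 * (Wc ν / Nr ^ 2 / ε) := Z_var hν h1 hb hN hNr hb0 hε hl hs0 hs1 hP0
  obtain ⟨k1, k2, k3, k4, k5, k6⟩ := consts hb0
  have h3 := mul_le_mul_of_nonneg_right B3 hW
  set X := Wc ν / Nr ^ 2 / ε
  have hX : 0 ≤ X := by positivity
  have hR4 : 0 ≤ Θ ^ 2 * R4 ν := mul_nonneg (sq_nonneg _) (Finset.sum_nonneg fun ρ _ =>
    Finset.sum_nonneg fun σ _ => mul_nonneg (mul_nonneg (hν ρ) (hν σ)) (by positivity))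
  have q1 : 0 < exp (8 * b) := exp_pos _
  have q2 : 0 < exp b * E1 := mul_pos (exp_pos _) (exp_pos _)
  have q3 : 0 ≤ exp b * E1 * b ^ 2 := mul_nonneg q2.le (sq_nonneg _)
  have c1' : exp (8 * b) ≤ Kc b := by linarith
  have c2' : 3 * (exp b * E1) ≤ Kc b := by linarith
  have c3' : exp b * E1 * b ^ 2 ≤ Kc b := by linarith
  have c4' : E1 ≤ Kc b := by linarith
  have d1 := mul_le_mul_of_nonneg_right c1' (mul_nonneg hε.le hW)
  have d2 := mul_le_mul_of_nonneg_right c2' (mul_nonneg hl hW)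
  have d3 := mul_le_mul_of_nonneg_right c3' (mul_nonneg hX hW)
  have d4 := mul_le_mul_of_nonneg_right c4' hR4
  linarith

end
end Vale.Agent.P150
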