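import Mathlib

/-! The zero-field SK Gibbs measure and its heat-bath dynamics. -/

namespace Vale.Agent.P150

open MeasureTheory ProbabilityTheory Real Finset Matrix

/-- Configurations. -/
abbrev Conf (N : ℕ) := Fin N → Bool

/-- The spin value. -/
def spin (b : Bool) : ℝ := if b then 1 else -1

/-- I.i.d. standard Gaussian disorder; only the entries with `i < j` are used. -/
noncomputable def disorder (N : ℕ) : Measure (Fin N × Fin N → ℝ) :=
  Measure.pi fun _ => gaussianReal 0 1

/-- The coupling between two sites. -/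
def coupling {N : ℕ} (g : Fin N × Fin N → ℝ) (i j : Fin N) : ℝ :=
  if i < j then g (i, j) else g (j, i)

/-- The exponent of the Gibbs weight. -/
noncomputable def hamiltonian {N : ℕ} (β : ℝ) (g : Fin N × Fin N → ℝ) (x : Conf N) : ℝ :=
  β / √(N : ℝ) * ∑ i, ∑ j, if i < j then g (i, j) * spin (x i) * spin (x j) else 0

/-- The Gibbs measure. -/
noncomputable def gibbs {N : ℕ} (β : ℝ) (g : Fin N × Fin N → ℝ) (x : Conf N) : ℝ :=
  exp (hamiltonian β g x) / ∑ y, exp (hamiltonian β g y)

/-- The field felt by site `i`. -/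
noncomputable def localField {N : ℕ} (β : ℝ) (g : Fin N × Fin N → ℝ) (x : Conf N)
    (i : Fin N) : ℝ :=
  β / √(N : ℝ) * ∑ j ∈ univ.erase i, coupling g i j * spin (x j)

/-- Heat-bath probability of the value `s` at site `i`. -/
noncomputable def updateProb {N : ℕ} (β : ℝ) (g : Fin N × Fin N → ℝ) (x : Conf N)
    (i : Fin N) (s : Bool) : ℝ :=
  exp (spin s * localField β g x i) / (2 * cosh (localField β g x i))

/-- The generator `∑ i (Q i - I)` of continuous-time heat-bath dynamics. -/
noncomputable def generator {N : ℕ} (β : ℝ) (g : Fin N × Fin N → ℝ) :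
    Matrix (Conf N) (Conf N) ℝ :=
  Matrix.of fun x y => ∑ i, ((∑ s, if y = Function.update x i s then updateProb β g x i s else 0)
    - if y = x then 1 else 0)

/-- The transition kernel at time `t`. -/
noncomputable def kernel {N : ℕ} (β : ℝ) (g : Fin N × Fin N → ℝ) (t : ℝ) :
    Matrix (Conf N) (Conf N) ℝ :=
  NormedSpace.exp (t • generator β g)

/-- Total variation distance to the Gibbs measure at time `t` from `x`. -/
noncomputable def tvDist {N : ℕ} (β : ℝ) (g : Fin N × Fin N → ℝ) (t : ℝ) (x : Conf N) : ℝ :=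
  (1 / 2) * ∑ y, |kernel β g t x y - gibbs β g y|

/-- Gibbs expectation. -/
noncomputable def expect {N : ℕ} (β : ℝ) (g : Fin N × Fin N → ℝ) (f : Conf N → ℝ) : ℝ :=
  ∑ x, gibbs β g x * f x

/-- Gibbs variance. -/
noncomputable def gibbsVar {N : ℕ} (β : ℝ) (g : Fin N × Fin N → ℝ) (f : Conf N → ℝ) : ℝ :=
  expect β g (fun x => f x ^ 2) - expect β g f ^ 2

/-- The Dirichlet form of the negative generator. -/
noncomputable def dirichlet {N : ℕ} (β : ℝ) (g : Fin N × Fin N → ℝ) (f : Conf N → ℝ) : ℝ :=
  -∑ x, gibbs β g x * f x * (generator β g *ᵥ f) x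

/-- The spectral gap, by its variational formula. -/
noncomputable def spectralGap {N : ℕ} (β : ℝ) (g : Fin N × Fin N → ℝ) : ℝ :=
  sInf {r | ∃ f : Conf N → ℝ, 0 < gibbsVar β g f ∧ r = dirichlet β g f / gibbsVar β g f}

end Vale.Agent.P150
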