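import Mathlib

/-! Exponential moments of a standard Gaussian vector. -/

namespace Vale.Agent.P150

open MeasureTheory ProbabilityTheory Real Finset

noncomputable def stdG : Measure ℝ := gaussianReal 0 1

instance : IsProbabilityMeasure stdG := by unfold stdG; infer_instance

noncomputable def gaussVec (ι : Type*) [Fintype ι] : Measure (ι → ℝ) :=
  Measure.pi fun _ => stdG

instance (ι : Type*) [Fintype ι] : IsProbabilityMeasure (gaussVec ι) := by
  unfold gaussVec; infer_instance

lemma pdf_tilt (c x : ℝ) :
    gaussianPDFReal 0 1 x * exp (c * x) = exp (c ^ 2 / 2) * gaussianPDFReal c 1 x := by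
  simp only [gaussianPDFReal, NNReal.coe_one]
  rw [mul_assoc, mul_left_comm (exp (c ^ 2 / 2)), ← exp_add, ← exp_add]
  congr 2
  ring

lemma integral_tilt (c : ℝ) (f : ℝ → ℝ) :
    ∫ x, f x * exp (c * x) ∂stdG = exp (c ^ 2 / 2) * ∫ x, f x ∂(gaussianReal c 1) := by
  unfold stdG
  rw [integral_gaussianReal_eq_integral_smul one_ne_zero,
    integral_gaussianReal_eq_integral_smul one_ne_zero, ← integral_const_mul]
  refine integral_congr_ae (Filter.Eventually.of_forall fun x => ?_)
  simp only [smul_eq_mul]
  linear_combination (f x) * pdf_tilt c x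

lemma moment0 (c : ℝ) : ∫ x, exp (c * x) ∂stdG = exp (c ^ 2 / 2) := by
  simpa using integral_tilt c (fun _ => 1)

lemma moment1 (c : ℝ) : ∫ x, x * exp (c * x) ∂stdG = c * exp (c ^ 2 / 2) := by
  rw [integral_tilt c (fun x => x), integral_id_gaussianReal, mul_comm]

lemma moment2 (c : ℝ) : ∫ x, x ^ 2 * exp (c * x) ∂stdG = (1 + c ^ 2) * exp (c ^ 2 / 2) := by
  rw [integral_tilt c (fun x => x ^ 2)]
  have h := variance_eq_sub (memLp_id_gaussianReal (μ := c) (v := 1) 2)
  rw [variance_id_gaussianReal] at h
  simp only [Pi.pow_apply, id_eq, integral_id_gaussianReal, NNReal.coe_one] at h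
  have h2 : ∫ x, x ^ 2 ∂(gaussianReal c 1) = 1 + c ^ 2 := by linarith
  rw [h2]; ring

lemma integrable_pow_exp (p : ℕ) (c : ℝ) : Integrable (fun x : ℝ => x ^ p * exp (c * x)) stdG := by
  have h : (0:ℝ) ∈ interior (integrableExpSet id stdG) ∧ c ∈ interior (integrableExpSet id stdG) := by
    unfold stdG; rw [integrableExpSet_id_gaussianReal]; simp
  exact ProbabilityTheory.integrable_pow_mul_exp_of_mem_interior_integrableExpSet h.2 p

variable {ι : Type*} [Fintype ι]

/-- squared norm -/
noncomputable def sq2 (c : ι → ℝ) : ℝ := ∑ k, c k ^ 2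

noncomputable def dot (c g : ι → ℝ) : ℝ := ∑ k, c k * g k

lemma exp_dot (c g : ι → ℝ) : exp (dot c g) = ∏ k, exp (c k * g k) := by
  rw [dot, exp_sum]

lemma integrable_exp_dot (c : ι → ℝ) : Integrable (fun g => exp (dot c g)) (gaussVec ι) := by
  simp_rw [exp_dot]
  exact Integrable.fintype_prod (f := fun k x => exp (c k * x))
    (fun k => by simpa using integrable_pow_exp 0 (c k))

lemma integral_exp_dot (c : ι → ℝ) : ∫ g, exp (dot c g) ∂gaussVec ι = exp (sq2 c / 2) := by
  simp_rw [exp_dot]
  rw [gaussVec, integral_fintype_prod_eq_prod (f := fun k x => exp (c k * x))]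
  simp_rw [moment0]
  rw [← exp_sum, sq2, Finset.sum_div]

/-- coordinate factor with monomial weights -/
lemma prod_mono [DecidableEq ι] (c g : ι → ℝ) (p : ι → ℕ) :
    (∏ k, g k ^ p k) * exp (dot c g) = ∏ k, g k ^ p k * exp (c k * g k) := by
  rw [exp_dot, ← Finset.prod_mul_distrib]

lemma integrable_one (c : ι → ℝ) (a : ι) :
    Integrable (fun g => g a * exp (dot c g)) (gaussVec ι) := by
  classical
  have : (fun g : ι → ℝ => g a * exp (dot c g)) =
      fun g => ∏ k, g k ^ (if k = a then 1 else 0) * exp (c k * g k) := by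
    funext g; rw [← prod_mono]; simp
  rw [this]
  exact Integrable.fintype_prod (f := fun k x => x ^ (if k = a then 1 else 0) * exp (c k * x))
    (fun k => integrable_pow_exp _ _)

lemma integral_one (c : ι → ℝ) (a : ι) :
    ∫ g, g a * exp (dot c g) ∂gaussVec ι = c a * exp (sq2 c / 2) := by
  classical
  have : (fun g : ι → ℝ => g a * exp (dot c g)) =
      fun g => ∏ k, g k ^ (if k = a then 1 else 0) * exp (c k * g k) := by
    funext g; rw [← prod_mono]; simp
  rw [this, gaussVec,
    integral_fintype_prod_eq_prod (f := fun k x => x ^ (if k = a then 1 else 0) * exp (c k * x))]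
  have e : ∀ k, ∫ x, x ^ (if k = a then 1 else 0) * exp (c k * x) ∂stdG
      = (if k = a then c a else 1) * exp (c k ^ 2 / 2) := by
    intro k; split_ifs with h
    · subst h; simpa using moment1 (c k)
    · simpa using moment0 (c k)
  simp_rw [e]
  rw [Finset.prod_mul_distrib, ← exp_sum, sq2, Finset.sum_div]
  simp

lemma integrable_two (c : ι → ℝ) (a b : ι) :
    Integrable (fun g => g a * g b * exp (dot c g)) (gaussVec ι) := by
  classical
  have : (fun g : ι → ℝ => g a * g b * exp (dot c g)) =
      fun g => ∏ k, g k ^ ((if k = a then 1 else 0) + (if k = b then 1 else 0)) * exp (c k * g k) := by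
    funext g; rw [← prod_mono]; simp only [pow_add, Finset.prod_mul_distrib]; simp
  rw [this]
  exact Integrable.fintype_prod
    (f := fun k x => x ^ ((if k = a then 1 else 0) + (if k = b then 1 else 0)) * exp (c k * x))
    (fun k => integrable_pow_exp _ _)

lemma integral_two [DecidableEq ι] (c : ι → ℝ) (a b : ι) :
    ∫ g, g a * g b * exp (dot c g) ∂gaussVec ι
      = ((if a = b then 1 else 0) + c a * c b) * exp (sq2 c / 2) := by
  have : (fun g : ι → ℝ => g a * g b * exp (dot c g)) =
      fun g => ∏ k, g k ^ ((if k = a then 1 else 0) + (if k = b then 1 else 0)) * exp (c k * g k) := by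
    funext g; rw [← prod_mono]; simp only [pow_add, Finset.prod_mul_distrib]; simp
  rw [this, gaussVec, integral_fintype_prod_eq_prod
    (f := fun k x => x ^ ((if k = a then 1 else 0) + (if k = b then 1 else 0)) * exp (c k * x))]
  by_cases hab : a = b
  · subst hab
    have e : ∀ k, ∫ x, x ^ ((if k = a then 1 else 0) + (if k = a then 1 else 0)) * exp (c k * x) ∂stdG
        = (if k = a then 1 + c a * c a else 1) * exp (c k ^ 2 / 2) := by
      intro k; split_ifs with h
      · subst h; simpa [sq] using moment2 (c k)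
      · simpa using moment0 (c k)
    simp_rw [e]
    rw [Finset.prod_mul_distrib, ← exp_sum, sq2, Finset.sum_div]
    simp
  · have e : ∀ k, ∫ x, x ^ ((if k = a then 1 else 0) + (if k = b then 1 else 0)) * exp (c k * x) ∂stdG
        = (if k = a then c a else 1) * (if k = b then c b else 1) * exp (c k ^ 2 / 2) := by
      intro k; split_ifs with h h' h'
      · exact absurd (h.symm.trans h') hab
      · subst h; simpa using moment1 (c k)
      · subst h'; simpa using moment1 (c k)
      · simpa using moment0 (c k)
    simp_rw [e]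
    rw [Finset.prod_mul_distrib, Finset.prod_mul_distrib, ← exp_sum, sq2, Finset.sum_div]
    simp [hab]

lemma integrable_lin (c v : ι → ℝ) :
    Integrable (fun g => dot v g * exp (dot c g)) (gaussVec ι) := by
  have h : (fun g : ι → ℝ => dot v g * exp (dot c g)) =
      fun g => ∑ a, v a * (g a * exp (dot c g)) := by
    funext g; simp only [dot, Finset.sum_mul, mul_assoc]
  rw [h]
  exact integrable_finsetSum _ fun a _ => (integrable_one c a).const_mul _

lemma integral_lin (c v : ι → ℝ) :
    ∫ g, dot v g * exp (dot c g) ∂gaussVec ι = dot v c * exp (sq2 c / 2) := by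
  have h : (fun g : ι → ℝ => dot v g * exp (dot c g)) =
      fun g => ∑ a, v a * (g a * exp (dot c g)) := by
    funext g; simp only [dot, Finset.sum_mul, mul_assoc]
  rw [h, integral_finsetSum _ fun a _ => (integrable_one c a).const_mul _]
  simp_rw [integral_const_mul, integral_one]
  simp only [dot, Finset.sum_mul, mul_assoc]

lemma sq_expand (c v g : ι → ℝ) : dot v g ^ 2 * exp (dot c g)
    = ∑ a, ∑ b, (v a * v b) * (g a * g b * exp (dot c g)) := by
  rw [sq]
  unfold dot
  rw [Finset.sum_mul_sum, Finset.sum_mul]
  refine Finset.sum_congr rfl fun a _ => ?_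
  rw [Finset.sum_mul]
  refine Finset.sum_congr rfl fun b _ => ?_
  ring

lemma integrable_quad (c v : ι → ℝ) :
    Integrable (fun g => dot v g ^ 2 * exp (dot c g)) (gaussVec ι) := by
  simp_rw [sq_expand]
  exact integrable_finsetSum _ fun a _ => integrable_finsetSum _ fun b _ =>
    (integrable_two c a b).const_mul _

lemma integral_quad (c v : ι → ℝ) :
    ∫ g, dot v g ^ 2 * exp (dot c g) ∂gaussVec ι = (sq2 v + dot v c ^ 2) * exp (sq2 c / 2) := by
  classical
  simp_rw [sq_expand]
  rw [integral_finsetSum _ fun a _ => integrable_finsetSum _ fun b _ =>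
    (integrable_two c a b).const_mul _]
  simp_rw [integral_finsetSum _ fun b _ => (integrable_two c _ b).const_mul _,
    integral_const_mul, integral_two]
  simp only [← mul_assoc, ← Finset.sum_mul]
  congr 1
  simp only [mul_add, Finset.sum_add_distrib, mul_ite, mul_one, mul_zero, Finset.sum_ite_eq,
    Finset.mem_univ, if_true]
  congr 1
  · simp [sq2, sq]
  · rw [sq]; unfold dot; rw [Finset.sum_mul_sum]
    exact Finset.sum_congr rfl fun a _ => Finset.sum_congr rfl fun b _ => by ring

end Vale.Agent.P150
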