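import Vale.Agent.P150.Defs

/-! Basic facts about the finite model. -/

namespace Vale.Agent.P150

open MeasureTheory ProbabilityTheory Real Finset Matrix

variable {N : ℕ} (β : ℝ) (g : Fin N × Fin N → ℝ)

lemma spin_sq (b : Bool) : spin b * spin b = 1 := by cases b <;> simp [spin]

lemma abs_spin (b : Bool) : |spin b| = 1 := by cases b <;> simp [spin]

lemma spin_not (b : Bool) : spin (!b) = -spin b := by cases b <;> simp [spin]

lemma sum_exp_pos : 0 < ∑ y : Conf N, exp (hamiltonian β g y) :=
  Finset.sum_pos (fun _ _ => exp_pos _) univ_nonempty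

lemma gibbs_pos (x : Conf N) : 0 < gibbs β g x := div_pos (exp_pos _) (sum_exp_pos β g)

lemma gibbs_sum : ∑ x : Conf N, gibbs β g x = 1 := by
  unfold gibbs; rw [← Finset.sum_div]; exact div_self (sum_exp_pos β g).ne'

lemma expect_const (c : ℝ) : expect β g (fun _ => c) = c := by
  simp [expect, ← Finset.sum_mul, gibbs_sum]

lemma expect_mono {f f' : Conf N → ℝ} (h : ∀ x, f x ≤ f' x) : expect β g f ≤ expect β g f' :=
  Finset.sum_le_sum fun x _ => mul_le_mul_of_nonneg_left (h x) (gibbs_pos β g x).le

lemma expect_nonneg {f : Conf N → ℝ} (h : ∀ x, 0 ≤ f x) : 0 ≤ expect β g f :=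
  Finset.sum_nonneg fun x _ => mul_nonneg (gibbs_pos β g x).le (h x)

lemma abs_expect_le {f : Conf N → ℝ} {c : ℝ} (h : ∀ x, |f x| ≤ c) : |expect β g f| ≤ c := by
  rw [abs_le]
  constructor
  · calc -c = expect β g (fun _ => -c) := (expect_const β g _).symm
      _ ≤ _ := expect_mono β g fun x => (abs_le.mp (h x)).1
  · calc _ ≤ expect β g (fun _ => c) := expect_mono β g fun x => (abs_le.mp (h x)).2
      _ = c := expect_const β g c

lemma coupling_comm {i j : Fin N} (h : i ≠ j) : coupling g i j = coupling g j i := by
  unfold coupling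
  rcases lt_or_gt_of_ne h with h | h
  · rw [if_pos h, if_neg h.asymm]
  · rw [if_pos h, if_neg h.asymm]

lemma half_sum (F : Fin N → Fin N → ℝ) (hF : ∀ i j, F i j = F j i) :
    ∑ i, ∑ j, (if i < j then F i j else 0) = (1 / 2) * ∑ i, ∑ j ∈ univ.erase i, F i j := by
  have h1 : ∀ i, ∑ j ∈ univ.erase i, F i j
      = ∑ j, (if i < j then F i j else 0) + ∑ j, (if j < i then F i j else 0) := by
    intro i
    rw [← Finset.filter_ne' univ i, Finset.sum_filter, ← Finset.sum_add_distrib]
    refine Finset.sum_congr rfl fun j _ => ?_
    rcases lt_trichotomy i j with h | h | h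
    · simp [h, h.asymm, h.ne']
    · simp [h]
    · simp [h, h.asymm, h.ne]
  have h2 : ∑ i, ∑ j, (if j < i then F i j else 0) = ∑ i, ∑ j, (if i < j then F i j else 0) := by
    rw [Finset.sum_comm]; simp_rw [hF]
  simp_rw [h1, Finset.sum_add_distrib, h2]
  ring

lemma hamiltonian_eq (x : Conf N) : hamiltonian β g x
    = (1 / 2) * ∑ i, spin (x i) * localField β g x i := by
  have h : ∀ i j : Fin N, (if i < j then g (i, j) * spin (x i) * spin (x j) else 0)
      = if i < j then coupling g i j * spin (x i) * spin (x j) else 0 := by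
    intro i j; split_ifs with h
    · simp [coupling, h]
    · rfl
  unfold hamiltonian localField
  simp_rw [h]
  rw [half_sum]
  · simp only [Finset.mul_sum]
    refine Finset.sum_congr rfl fun i _ => Finset.sum_congr rfl fun j _ => by ring
  · intro i j
    by_cases hij : i = j
    · rw [hij]
    · rw [coupling_comm g hij]; ring

/-- Flip of one spin. -/
def flip1 (x : Conf N) (i : Fin N) : Conf N := Function.update x i (!x i)

lemma flip1_flip1 (x : Conf N) (i : Fin N) : flip1 (flip1 x i) i = x := by
  simp [flip1]

lemma flip1_self (x : Conf N) (i : Fin N) : flip1 x i i = !x i := by simp [flip1]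

lemma flip1_ne (x : Conf N) {i j : Fin N} (h : j ≠ i) : flip1 x i j = x j := by simp [flip1, h]

lemma sum_flip (i : Fin N) (f : Conf N → ℝ) : ∑ x, f (flip1 x i) = ∑ x, f x :=
  Fintype.sum_bijective _ (Function.Involutive.bijective fun x => flip1_flip1 x i) _ _
    (fun _ => rfl)

lemma localField_flip (x : Conf N) (i : Fin N) :
    localField β g (flip1 x i) i = localField β g x i := by
  unfold localField
  congr 1
  exact Finset.sum_congr rfl fun j hj => by rw [flip1_ne x (Finset.ne_of_mem_erase hj)]

lemma hamiltonian_flip (x : Conf N) (i : Fin N) :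
    hamiltonian β g (flip1 x i) = hamiltonian β g x - 2 * spin (x i) * localField β g x i := by
  have key : ∑ k, spin (flip1 x i k) * localField β g (flip1 x i) k
      = ∑ k, spin (x k) * localField β g x k - 4 * spin (x i) * localField β g x i := by
    rw [← Finset.add_sum_erase univ (fun k => spin (flip1 x i k) * localField β g (flip1 x i) k)
      (mem_univ i), ← Finset.add_sum_erase univ (fun k => spin (x k) * localField β g x k)
      (mem_univ i), flip1_self, spin_not, localField_flip]
    have h : ∀ k ∈ univ.erase i, spin (flip1 x i k) * localField β g (flip1 x i) k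
        = spin (x k) * localField β g x k
          - 2 * spin (x i) * (β / √(N : ℝ) * (coupling g i k * spin (x k))) := by
      intro k hk
      have hki : k ≠ i := Finset.ne_of_mem_erase hk
      have hik : i ∈ univ.erase k := Finset.mem_erase.mpr ⟨hki.symm, mem_univ _⟩
      rw [flip1_ne x hki, coupling_comm g hki.symm]
      unfold localField
      rw [← Finset.add_sum_erase _ _ hik, ← Finset.add_sum_erase _ _ hik, flip1_self, spin_not]
      have e : ∑ j ∈ (univ.erase k).erase i, coupling g k j * spin (flip1 x i j)
          = ∑ j ∈ (univ.erase k).erase i, coupling g k j * spin (x j) :=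
        Finset.sum_congr rfl fun j hj => by rw [flip1_ne x (Finset.ne_of_mem_erase hj)]
      rw [e]; ring
    rw [Finset.sum_congr rfl h, Finset.sum_sub_distrib, ← Finset.mul_sum, ← Finset.mul_sum]
    unfold localField
    ring
  rw [hamiltonian_eq, hamiltonian_eq, key]; ring

/-- Flip rate. -/
noncomputable def rate (x : Conf N) (i : Fin N) : ℝ := updateProb β g x i (!x i)

lemma rate_nonneg (x : Conf N) (i : Fin N) : 0 ≤ rate β g x i := by
  unfold rate updateProb; positivity

lemma updateProb_sum (x : Conf N) (i : Fin N) :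
    updateProb β g x i true + updateProb β g x i false = 1 := by
  unfold updateProb
  have := cosh_pos (localField β g x i)
  rw [cosh_eq] at this ⊢
  simp only [spin, Bool.false_eq_true, if_false, if_true, one_mul, neg_one_mul]
  field_simp

lemma rate_le_one (x : Conf N) (i : Fin N) : rate β g x i ≤ 1 := by
  have h := updateProb_sum β g x i
  have h1 : 0 ≤ updateProb β g x i true := by unfold updateProb; positivity
  have h2 : 0 ≤ updateProb β g x i false := by unfold updateProb; positivity
  unfold rate
  cases x i <;> simp <;> linarith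

lemma detailed_balance (x : Conf N) (i : Fin N) :
    gibbs β g (flip1 x i) * rate β g (flip1 x i) i = gibbs β g x * rate β g x i := by
  unfold rate gibbs updateProb
  rw [localField_flip, flip1_self, Bool.not_not, hamiltonian_flip, spin_not]
  rw [div_mul_div_comm, div_mul_div_comm, ← exp_add, ← exp_add]
  ring_nf

lemma generator_apply (f : Conf N → ℝ) (x : Conf N) :
    (generator β g *ᵥ f) x = ∑ i, rate β g x i * (f (flip1 x i) - f x) := by
  unfold generator Matrix.mulVec dotProduct
  simp only [Matrix.of_apply, Finset.sum_mul]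
  rw [Finset.sum_comm]
  refine Finset.sum_congr rfl fun i _ => ?_
  simp only [sub_mul, Finset.sum_sub_distrib, Finset.sum_mul, ite_mul, zero_mul, one_mul]
  rw [Finset.sum_comm]
  simp only [Finset.sum_ite_eq', Finset.mem_univ, if_true, Fintype.sum_bool]
  have h := updateProb_sum β g x i
  cases hx : x i <;>
    (have e : Function.update x i (x i) = x := Function.update_eq_self i x
     rw [hx] at e
     simp only [rate, flip1, hx, Bool.not_true, Bool.not_false, e]
     linear_combination (f x) * h)

lemma symm_form (f h : Conf N → ℝ) :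
    ∑ x, gibbs β g x * f x * (generator β g *ᵥ h) x
      = -(1 / 2) * ∑ i, ∑ x, gibbs β g x * rate β g x i
          * ((f (flip1 x i) - f x) * (h (flip1 x i) - h x)) := by
  simp only [generator_apply, Finset.mul_sum]
  rw [Finset.sum_comm]
  refine Finset.sum_congr rfl fun i _ => ?_
  have e1 : ∑ x, gibbs β g x * f x * (rate β g x i * (h (flip1 x i) - h x))
      = ∑ x, gibbs β g x * rate β g x i * (f x * (h (flip1 x i) - h x)) :=
    Finset.sum_congr rfl fun x _ => by ring
  have e2 : ∑ x, gibbs β g x * rate β g x i * (f x * (h (flip1 x i) - h x))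
      = ∑ x, gibbs β g x * rate β g x i * (f (flip1 x i) * (h x - h (flip1 x i))) := by
    rw [← sum_flip i]
    refine Finset.sum_congr rfl fun x _ => ?_
    rw [detailed_balance, flip1_flip1]
  have e3 : ∑ x, -(1 / 2) * (gibbs β g x * rate β g x i
          * ((f (flip1 x i) - f x) * (h (flip1 x i) - h x)))
      = (1 / 2) * ∑ x, gibbs β g x * rate β g x i * (f x * (h (flip1 x i) - h x))
        + (1 / 2) * ∑ x, gibbs β g x * rate β g x i * (f (flip1 x i) * (h x - h (flip1 x i))) := by
    rw [Finset.mul_sum, Finset.mul_sum, ← Finset.sum_add_distrib]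
    exact Finset.sum_congr rfl fun x _ => by ring
  rw [e1, e3, ← e2]; ring

lemma dirichlet_eq (f : Conf N → ℝ) :
    dirichlet β g f = (1 / 2) * ∑ i, ∑ x, gibbs β g x * rate β g x i
      * (f (flip1 x i) - f x) ^ 2 := by
  unfold dirichlet
  rw [symm_form]; simp only [sq]; ring

lemma dirichlet_nonneg (f : Conf N → ℝ) : 0 ≤ dirichlet β g f := by
  rw [dirichlet_eq]
  refine mul_nonneg (by norm_num) (Finset.sum_nonneg fun i _ => Finset.sum_nonneg fun x _ => ?_)
  exact mul_nonneg (mul_nonneg (gibbs_pos β g x).le (rate_nonneg β g x i)) (sq_nonneg _)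

end Vale.Agent.P150
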