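import Vale.Agent.P150.Model

/-! A small Rayleigh quotient forces slow mixing. -/

namespace Vale.Agent.P150

open MeasureTheory ProbabilityTheory Real Finset Matrix

variable {N : ℕ} (β : ℝ) (g : Fin N × Fin N → ℝ)

lemma balance_gen (x y : Conf N) :
    gibbs β g x * generator β g x y = gibbs β g y * generator β g y x := by
  have h : ∀ a b : Conf N, ∑ z, gibbs β g z * (Pi.single a (1:ℝ) : Conf N → ℝ) z
      * (generator β g *ᵥ (Pi.single b 1)) z = gibbs β g a * generator β g a b := by
    intro a b
    rw [Finset.sum_eq_single a]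
    · simp
    · intro z _ hz; simp [hz]
    · simp
  rw [← h x y, ← h y x, symm_form, symm_form]
  congr 1
  exact Finset.sum_congr rfl fun i _ => Finset.sum_congr rfl fun z _ => by ring

/-- Symmetrised negative generator. -/
noncomputable def symGen : Matrix (Conf N) (Conf N) ℝ :=
  Matrix.of fun x y => -(√(gibbs β g x) * generator β g x y / √(gibbs β g y))

lemma symGen_herm : (symGen β g).IsHermitian := by
  ext x y
  simp only [symGen, Matrix.conjTranspose_apply, Matrix.of_apply, star_trivial, neg_inj]
  have hx := sqrt_pos.mpr (gibbs_pos β g x)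
  have hy := sqrt_pos.mpr (gibbs_pos β g y)
  rw [div_eq_div_iff hx.ne' hy.ne']
  have h := balance_gen β g x y
  have ex := mul_self_sqrt (gibbs_pos β g x).le
  have ey := mul_self_sqrt (gibbs_pos β g y).le
  linear_combination (generator β g y x) * ey - (generator β g x y) * ex - h

lemma parseval {ι : Type*} [Fintype ι] (b : OrthonormalBasis ι ℝ (EuclideanSpace ℝ ι))
    (a c : ι → ℝ) : ∑ i, (∑ x, (b i) x * a x) * (∑ x, (b i) x * c x) = ∑ x, a x * c x := by
  have h := b.sum_inner_mul_inner (WithLp.toLp 2 a) (WithLp.toLp 2 c)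
  simp only [PiLp.inner_apply, RCLike.inner_apply, conj_trivial] at h
  refine (Eq.trans ?_ h).trans (Finset.sum_congr rfl fun x _ => mul_comm _ _)
  exact Finset.sum_congr rfl fun i _ => by
    congr 1
    exact Finset.sum_congr rfl fun x _ => mul_comm _ _

lemma const_of_flips {φ : Conf N → ℝ} (h : ∀ x i, φ (flip1 x i) = φ x) :
    ∀ x y, φ x = φ y := by
  have : ∀ k x y, (univ.filter fun i => x i ≠ y i).card = k → φ x = φ y := by
    intro k
    induction k with
    | zero =>
      intro x y hk
      have e : x = y := by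
        funext i
        by_contra hi
        have : i ∈ univ.filter fun i => x i ≠ y i := by simp [hi]
        rw [Finset.card_eq_zero.mp hk] at this
        exact absurd this (Finset.notMem_empty i)
      rw [e]
    | succ k ih =>
      intro x y hk
      obtain ⟨i, hi⟩ := Finset.card_pos.mp (by omega : 0 < (univ.filter fun i => x i ≠ y i).card)
      have hi' : x i ≠ y i := (Finset.mem_filter.mp hi).2
      rw [← h x i]
      apply ih
      have e : (univ.filter fun j => flip1 x i j ≠ y j) = (univ.filter fun j => x j ≠ y j).erase i := by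
        ext j
        by_cases hj : j = i
        · subst hj; simp only [Finset.mem_filter, Finset.mem_erase, ne_eq, not_true, false_and,
            Finset.mem_univ, true_and, iff_false, not_not, flip1_self]
          revert hi'; cases x j <;> cases y j <;> simp
        · simp [flip1_ne x hj, hj]
      rw [e, Finset.card_erase_of_mem hi]; omega
  exact fun x y => this _ x y rfl

lemma mulVec_pow {l : ℝ} {φ : Conf N → ℝ} (h : generator β g *ᵥ φ = (-l) • φ) (k : ℕ) :
    (generator β g ^ k) *ᵥ φ = (-l) ^ k • φ := by
  induction k with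
  | zero => simp
  | succ k ih =>
    rw [pow_succ', ← Matrix.mulVec_mulVec, ih, Matrix.mulVec_smul, h, smul_smul, pow_succ]

lemma kernel_eigen {l : ℝ} {φ : Conf N → ℝ} (h : generator β g *ᵥ φ = (-l) • φ) (t : ℝ)
    (x : Conf N) : ∑ y, kernel β g t x y * φ y = exp (-(l * t)) * φ x := by
  letI : NormedRing (Matrix (Conf N) (Conf N) ℝ) := Matrix.linftyOpNormedRing
  letI : NormedAlgebra ℝ (Matrix (Conf N) (Conf N) ℝ) := Matrix.linftyOpNormedAlgebra
  let F : Matrix (Conf N) (Conf N) ℝ →ₗ[ℝ] ℝ :=
    { toFun := fun M => ∑ y, M x y * φ y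
      map_add' := fun A B => by simp [add_mul, Finset.sum_add_distrib]
      map_smul' := fun c A => by simp [Finset.mul_sum, mul_assoc] }
  have hc : Continuous F := F.continuous_of_finiteDimensional
  have h1 := (NormedSpace.exp_series_hasSum_exp' (𝕂 := ℝ) (t • generator β g)).map F hc
  have h2 := (NormedSpace.exp_series_hasSum_exp' (𝕂 := ℝ) (-(l * t))).mul_right (φ x)
  have e : (F ∘ fun k : ℕ => ((k.factorial : ℝ)⁻¹ : ℝ) • (t • generator β g) ^ k)
      = fun k : ℕ => ((k.factorial : ℝ)⁻¹ • (-(l * t)) ^ k) * φ x := by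
    funext k
    have hk := congrFun (mulVec_pow β g h k) x
    simp only [Matrix.mulVec, dotProduct, Pi.smul_apply, smul_eq_mul] at hk
    change F (((k.factorial : ℝ)⁻¹ : ℝ) • (t • generator β g) ^ k) = _
    rw [smul_pow, map_smul, map_smul]
    change (k.factorial : ℝ)⁻¹ • (t ^ k • ∑ y, (generator β g ^ k) x y * φ y) = _
    rw [hk, show -(l * t) = (-l) * t by ring, mul_pow]
    simp only [smul_eq_mul]; ring
  rw [e] at h1
  have := h1.unique h2
  rw [← Real.exp_eq_exp_ℝ] at this
  exact this

theorem tv_lower {f : Conf N → ℝ} {R t : ℝ} (hf0 : expect β g f = 0)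
    (hv : 0 < gibbsVar β g f) (hR : dirichlet β g f ≤ R * gibbsVar β g f)
    (ht : 0 ≤ t) (hRt : R * t < log 2) : ∃ x, 1 / 4 < tvDist β g t x := by
  have hS := symGen_herm β g
  set b := hS.eigenvectorBasis
  set l := hS.eigenvalues
  have hSi : ∀ i x, ∑ y, symGen β g x y * (b i) y = l i * (b i) x := by
    intro i x
    have := congrFun (hS.mulVec_eigenvectorBasis i) x
    simpa [Matrix.mulVec, dotProduct, b, l] using this
  have hsq : ∀ x, 0 < √(gibbs β g x) := fun x => sqrt_pos.mpr (gibbs_pos β g x)
  set φf : Conf N → ℝ := fun x => √(gibbs β g x) * f x with hφf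
  set c : Conf N → ℝ := fun i => ∑ x, (b i) x * φf x with hc
  have e1 : ∑ i, c i * c i = gibbsVar β g f := by
    rw [hc, parseval b φf φf, gibbsVar, hf0]
    simp only [hφf, expect, ne_eq, OfNat.ofNat_ne_zero, not_false_eq_true, zero_pow, sub_zero]
    refine Finset.sum_congr rfl fun x _ => ?_
    linear_combination (f x ^ 2) * mul_self_sqrt (gibbs_pos β g x).le
  have e2 : ∑ i, c i * (l i * c i) = dirichlet β g f := by
    have : ∀ i, l i * c i = ∑ x, (b i) x * ∑ y, symGen β g x y * φf y := by
      intro i
      simp only [hc, Finset.mul_sum]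
      rw [Finset.sum_comm (f := fun x y => (b i) x * (symGen β g x y * φf y))]
      refine Finset.sum_congr rfl fun y _ => ?_
      rw [← mul_assoc, ← hSi i y, Finset.sum_mul]
      refine Finset.sum_congr rfl fun x _ => ?_
      rw [← hS.apply x y, star_trivial]; ring
    simp_rw [this, hc]
    rw [parseval b φf]
    simp only [hφf, dirichlet, symGen, Matrix.of_apply, Matrix.mulVec, dotProduct, Finset.mul_sum]
    rw [← Finset.sum_neg_distrib]
    refine Finset.sum_congr rfl fun x _ => ?_
    rw [← Finset.sum_neg_distrib]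
    refine Finset.sum_congr rfl fun y _ => ?_
    have ey := hsq y
    field_simp
    linear_combination (-(f x * generator β g x y * f y)) * sq_sqrt (gibbs_pos β g x).le
  obtain ⟨i, hci, hli⟩ : ∃ i, c i ≠ 0 ∧ l i ≤ R := by
    by_contra hno
    push Not at hno
    have hle : ∀ i, R * (c i * c i) ≤ c i * (l i * c i) := by
      intro i
      rcases eq_or_ne (c i) 0 with h | h
      · simp [h]
      · have := mul_le_mul_of_nonneg_left (hno i h).le (mul_self_nonneg (c i))
        linarith
    obtain ⟨i, -, hi⟩ := Finset.exists_ne_zero_of_sum_ne_zero (e1 ▸ hv.ne' : ∑ i, c i * c i ≠ 0)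
    have hci : c i ≠ 0 := fun h => hi (by simp [h])
    have hlt : ∑ i, R * (c i * c i) < ∑ i, c i * (l i * c i) := by
      refine Finset.sum_lt_sum (fun i _ => hle i) ⟨i, mem_univ i, ?_⟩
      have := mul_lt_mul_of_pos_left (hno i hci) (mul_self_pos.mpr hci)
      linarith
    rw [← Finset.mul_sum, e1, e2] at hlt
    linarith
  set φ : Conf N → ℝ := fun x => (b i) x / √(gibbs β g x) with hφ
  have hLφ : generator β g *ᵥ φ = (-(l i)) • φ := by
    funext x
    have h := hSi i x
    simp only [symGen, Matrix.of_apply, neg_mul, Finset.sum_neg_distrib] at h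
    simp only [Matrix.mulVec, dotProduct, hφ, Pi.smul_apply, smul_eq_mul]
    have hx := hsq x
    have e : √(gibbs β g x) * ∑ y, generator β g x y * ((b i) y / √(gibbs β g y))
        = ∑ y, √(gibbs β g x) * generator β g x y / √(gibbs β g y) * (b i) y := by
      rw [Finset.mul_sum]; exact Finset.sum_congr rfl fun y _ => by ring
    rw [← mul_right_inj' hx.ne', e, mul_comm (√(gibbs β g x)), mul_assoc, div_mul_cancel₀ _ hx.ne']
    linarith
  have hD : dirichlet β g φ = l i * expect β g (fun x => φ x ^ 2) := by
    simp only [dirichlet, hLφ, expect, Pi.smul_apply, smul_eq_mul, Finset.mul_sum]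
    rw [← Finset.sum_neg_distrib]
    exact Finset.sum_congr rfl fun x _ => by ring
  have hn : expect β g (fun x => φ x ^ 2) = 1 := by
    have h1 : ∑ x, (b i) x * (b i) x = 1 := by
      have := b.orthonormal.1 i
      have h2 := real_inner_self_eq_norm_sq (b i)
      rw [this, PiLp.inner_apply] at h2
      simpa [sq] using h2
    rw [← h1]
    refine Finset.sum_congr rfl fun x _ => ?_
    have := hsq x
    simp only [hφ, div_pow, sq_sqrt (gibbs_pos β g x).le]
    field_simp [(gibbs_pos β g x).ne']
  have hl0 : l i ≠ 0 := by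
    intro h0
    have hz : dirichlet β g φ = 0 := by rw [hD, h0, zero_mul]
    rw [dirichlet_eq, mul_eq_zero, or_iff_right (by norm_num : (1/2 : ℝ) ≠ 0)] at hz
    have hflip : ∀ x k, φ (flip1 x k) = φ x := by
      intro x k
      have h1 := (Finset.sum_eq_zero_iff_of_nonneg (fun k _ => Finset.sum_nonneg fun x _ =>
        mul_nonneg (mul_nonneg (gibbs_pos β g x).le (rate_nonneg β g x k)) (sq_nonneg _))).mp hz k
        (mem_univ k)
      have h2 := (Finset.sum_eq_zero_iff_of_nonneg (fun x _ =>
        mul_nonneg (mul_nonneg (gibbs_pos β g x).le (rate_nonneg β g x k)) (sq_nonneg _))).mp h1 x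
        (mem_univ x)
      have hr : 0 < gibbs β g x * rate β g x k := by
        refine mul_pos (gibbs_pos β g x) ?_
        unfold rate updateProb; positivity
      have := (mul_eq_zero.mp h2).resolve_left hr.ne'
      exact sub_eq_zero.mp (pow_eq_zero_iff two_ne_zero |>.mp this)
    apply hci
    have hconst := const_of_flips hflip
    have x0 : Conf N := fun _ => true
    have : c i = φ x0 * expect β g f := by
      simp only [hc, hφf, expect, Finset.mul_sum]
      refine Finset.sum_congr rfl fun x _ => ?_
      rw [← hconst x x0]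
      simp only [hφ]
      have := hsq x
      field_simp
      linear_combination ((b i) x * f x) * sq_sqrt (gibbs_pos β g x).le
    rw [this, hf0, mul_zero]
  have hlpos : 0 < l i := by
    rcases lt_or_gt_of_ne hl0 with h | h
    · have := dirichlet_nonneg β g φ
      rw [hD, hn] at this; linarith
    · exact h
  have hmean : expect β g φ = 0 := by
    have h := symm_form β g (fun _ => (1:ℝ)) φ
    simp only [hLφ, sub_self, zero_mul, mul_zero, Finset.sum_const_zero, mul_one,
      Pi.smul_apply, smul_eq_mul] at h
    have e : ∑ x, gibbs β g x * (-(l i) * φ x) = -(l i) * expect β g φ := by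
      simp only [expect, Finset.mul_sum]; exact Finset.sum_congr rfl fun x _ => by ring
    rw [e] at h
    simpa [hl0] using h
  by_contra hno
  push Not at hno
  obtain ⟨x, -, hx⟩ := Finset.exists_max_image univ (fun x => |φ x|) univ_nonempty
  have hxpos : 0 < |φ x| := by
    rcases (abs_nonneg (φ x)).lt_or_eq with h | h
    · exact h
    · exfalso
      have : ∀ y, φ y = 0 := fun y => abs_eq_zero.mp (le_antisymm (h ▸ hx y (mem_univ y)) (abs_nonneg _))
      simp [expect, this] at hn
  have hE : exp (-(l i * t)) * |φ x| ≤ 2 * tvDist β g t x * |φ x| := by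
    have e : exp (-(l i * t)) * φ x = ∑ y, (kernel β g t x y - gibbs β g y) * φ y := by
      simp only [sub_mul, Finset.sum_sub_distrib, kernel_eigen β g hLφ]
      have : ∑ y, gibbs β g y * φ y = 0 := hmean
      rw [this, sub_zero]
    calc exp (-(l i * t)) * |φ x| = |exp (-(l i * t)) * φ x| := by
          rw [abs_mul, abs_of_pos (exp_pos _)]
      _ ≤ ∑ y, |(kernel β g t x y - gibbs β g y) * φ y| := by rw [e]; exact abs_sum_le_sum_abs _ _
      _ ≤ ∑ y, |kernel β g t x y - gibbs β g y| * |φ x| := Finset.sum_le_sum fun y _ => by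
          rw [abs_mul]; exact mul_le_mul_of_nonneg_left (hx y (mem_univ y)) (abs_nonneg _)
      _ = 2 * tvDist β g t x * |φ x| := by rw [← Finset.sum_mul, tvDist]; ring
  have h1 := le_of_mul_le_mul_right hE hxpos
  have h2 : exp (-(l i * t)) ≤ exp (-log 2) := by
    rw [exp_neg (log 2), exp_log (by norm_num)]; linarith [hno x]
  have h3 := exp_le_exp.mp h2
  have := mul_le_mul_of_nonneg_right hli ht
  linarith

end Vale.Agent.P150
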