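import Vale.Agent.P150.Gauss

/-! Gaussian integrals of hyperbolic functions of linear forms. -/

namespace Vale.Agent.P150

open MeasureTheory ProbabilityTheory Real Finset

variable {ι : Type*} [Fintype ι]

lemma dot_add (c d g : ι → ℝ) : dot (c + d) g = dot c g + dot d g := by
  simp [dot, add_mul, Finset.sum_add_distrib]

lemma dot_neg (c g : ι → ℝ) : dot (-c) g = -dot c g := by simp [dot]

lemma dot_sub (c d g : ι → ℝ) : dot (c - d) g = dot c g - dot d g := by
  rw [sub_eq_add_neg, dot_add, dot_neg, sub_eq_add_neg]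

lemma dot_comm (c d : ι → ℝ) : dot c d = dot d c := by simp [dot, mul_comm]

lemma sq2_eq (c : ι → ℝ) : sq2 c = dot c c := by simp [sq2, dot, sq]

lemma sq2_neg (c : ι → ℝ) : sq2 (-c) = sq2 c := by simp [sq2]

lemma sq2_add (c d : ι → ℝ) : sq2 (c + d) = sq2 c + sq2 d + 2 * dot c d := by
  rw [sq2_eq, sq2_eq, sq2_eq, dot_add, dot_comm c, dot_comm d, dot_add, dot_add, dot_comm d c]
  ring

lemma sq2_sub (c d : ι → ℝ) : sq2 (c - d) = sq2 c + sq2 d - 2 * dot c d := by
  rw [sub_eq_add_neg, sq2_add, sq2_neg, dot_comm c, dot_neg, dot_comm d c]; ring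

lemma integrable_cosh_dot (c : ι → ℝ) : Integrable (fun g => cosh (dot c g)) (gaussVec ι) := by
  have : (fun g => cosh (dot c g)) = fun g => (exp (dot c g) + exp (dot (-c) g)) / 2 := by
    funext g; rw [cosh_eq, dot_neg]
  rw [this]
  exact ((integrable_exp_dot c).add (integrable_exp_dot _)).div_const 2

lemma integral_cosh_dot (c : ι → ℝ) :
    ∫ g, cosh (dot c g) ∂gaussVec ι = exp (sq2 c / 2) := by
  have : (fun g => cosh (dot c g)) = fun g => (exp (dot c g) + exp (dot (-c) g)) / 2 := by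
    funext g; rw [cosh_eq, dot_neg]
  rw [this, integral_div, integral_add (integrable_exp_dot c) (integrable_exp_dot _),
    integral_exp_dot, integral_exp_dot, sq2_neg]
  ring

lemma lin_sinh_eq (c v : ι → ℝ) : (fun g => dot v g * sinh (dot c g)) =
    fun g => (dot v g * exp (dot c g) - dot v g * exp (dot (-c) g)) / 2 := by
  funext g; rw [sinh_eq, dot_neg]; ring

lemma integrable_lin_sinh (c v : ι → ℝ) :
    Integrable (fun g => dot v g * sinh (dot c g)) (gaussVec ι) := by
  rw [lin_sinh_eq]; exact ((integrable_lin c v).sub (integrable_lin _ v)).div_const 2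

lemma integral_lin_sinh (c v : ι → ℝ) :
    ∫ g, dot v g * sinh (dot c g) ∂gaussVec ι = dot v c * exp (sq2 c / 2) := by
  rw [lin_sinh_eq, integral_div, integral_sub (integrable_lin c v) (integrable_lin _ v),
    integral_lin, integral_lin, sq2_neg, dot_comm v (-c), dot_neg, dot_comm c v]
  ring

lemma quad_cosh_eq (c v : ι → ℝ) : (fun g => dot v g ^ 2 * cosh (dot c g)) =
    fun g => (dot v g ^ 2 * exp (dot c g) + dot v g ^ 2 * exp (dot (-c) g)) / 2 := by
  funext g; rw [cosh_eq, dot_neg]; ring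

lemma integrable_quad_cosh (c v : ι → ℝ) :
    Integrable (fun g => dot v g ^ 2 * cosh (dot c g)) (gaussVec ι) := by
  rw [quad_cosh_eq]; exact ((integrable_quad c v).add (integrable_quad _ v)).div_const 2

lemma integral_quad_cosh (c v : ι → ℝ) :
    ∫ g, dot v g ^ 2 * cosh (dot c g) ∂gaussVec ι = (sq2 v + dot v c ^ 2) * exp (sq2 c / 2) := by
  rw [quad_cosh_eq, integral_div, integral_add (integrable_quad c v) (integrable_quad _ v),
    integral_quad, integral_quad, sq2_neg, dot_comm v (-c), dot_neg, dot_comm c v]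
  ring

lemma cc_eq (c d g : ι → ℝ) :
    cosh (dot c g) * cosh (dot d g) = (cosh (dot (c + d) g) + cosh (dot (c - d) g)) / 2 := by
  rw [dot_add, dot_sub, cosh_add, cosh_sub]; ring

lemma integrable_cc (c d : ι → ℝ) :
    Integrable (fun g => cosh (dot c g) * cosh (dot d g)) (gaussVec ι) := by
  simp_rw [cc_eq]
  exact ((integrable_cosh_dot _).add (integrable_cosh_dot _)).div_const 2

lemma integral_cc (c d : ι → ℝ) :
    ∫ g, cosh (dot c g) * cosh (dot d g) ∂gaussVec ι
      = exp ((sq2 c + sq2 d) / 2) * cosh (dot c d) := by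
  simp_rw [cc_eq]
  rw [integral_div, integral_add (integrable_cosh_dot _) (integrable_cosh_dot _),
    integral_cosh_dot, integral_cosh_dot, sq2_add, sq2_sub, cosh_eq,
    show (sq2 c + sq2 d + 2 * dot c d) / 2 = (sq2 c + sq2 d) / 2 + dot c d by ring,
    show (sq2 c + sq2 d - 2 * dot c d) / 2 = (sq2 c + sq2 d) / 2 + -dot c d by ring,
    exp_add, exp_add]
  ring

lemma quad_cc_eq (c d v : ι → ℝ) :
    (fun g => dot v g ^ 2 * (cosh (dot c g) * cosh (dot d g))) =
    fun g => (dot v g ^ 2 * cosh (dot (c + d) g) + dot v g ^ 2 * cosh (dot (c - d) g)) / 2 := by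
  funext g; rw [cc_eq]; ring

lemma integrable_quad_cc (c d v : ι → ℝ) :
    Integrable (fun g => dot v g ^ 2 * (cosh (dot c g) * cosh (dot d g))) (gaussVec ι) := by
  rw [quad_cc_eq]
  exact ((integrable_quad_cosh _ v).add (integrable_quad_cosh _ v)).div_const 2

lemma integral_quad_cc (c d v : ι → ℝ) :
    ∫ g, dot v g ^ 2 * (cosh (dot c g) * cosh (dot d g)) ∂gaussVec ι
      = exp ((sq2 c + sq2 d) / 2) * ((sq2 v + (dot v c + dot v d) ^ 2) * exp (dot c d)
        + (sq2 v + (dot v c - dot v d) ^ 2) * exp (-dot c d)) / 2 := by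
  rw [quad_cc_eq, integral_div,
    integral_add (integrable_quad_cosh _ v) (integrable_quad_cosh _ v),
    integral_quad_cosh, integral_quad_cosh, sq2_add, sq2_sub, dot_comm v (c + d),
    dot_comm v (c - d), dot_add, dot_sub, dot_comm c v, dot_comm d v,
    show (sq2 c + sq2 d + 2 * dot c d) / 2 = (sq2 c + sq2 d) / 2 + dot c d by ring,
    show (sq2 c + sq2 d - 2 * dot c d) / 2 = (sq2 c + sq2 d) / 2 + -dot c d by ring,
    exp_add, exp_add]
  ring

lemma cosh_pow_four_le (x : ℝ) : cosh x ^ 4 ≤ cosh (4 * x) := by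
  have h1 := cosh_two_mul x
  rw [sinh_sq] at h1
  have h2 := cosh_two_mul (2 * x)
  rw [sinh_sq] at h2
  rw [show 4 * x = 2 * (2 * x) by ring, h2, h1]
  nlinarith [one_le_cosh x, sq_nonneg (cosh x ^ 2 - 1), mul_self_le_mul_self zero_le_one (one_le_cosh x)]

lemma integrable_cc_sq (c d : ι → ℝ) :
    Integrable (fun g => (cosh (dot c g) * cosh (dot d g)) ^ 2) (gaussVec ι) := by
  have : (fun g => (cosh (dot c g) * cosh (dot d g)) ^ 2) = fun g =>
      ((cosh (dot (c + d) g) * cosh (dot (c + d) g)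
        + 2 * (cosh (dot (c + d) g) * cosh (dot (c - d) g))
        + cosh (dot (c - d) g) * cosh (dot (c - d) g)) / 4) := by
    funext g; rw [cc_eq]; ring
  rw [this]
  exact (((integrable_cc _ _).add ((integrable_cc _ _).const_mul 2)).add
    (integrable_cc _ _)).div_const 4

lemma integral_cc_sq_le (c d : ι → ℝ) :
    ∫ g, (cosh (dot c g) * cosh (dot d g)) ^ 2 ∂gaussVec ι
      ≤ (exp (8 * sq2 c) + exp (8 * sq2 d)) / 2 := by
  have h : ∀ e : ι → ℝ, sq2 ((4:ℝ) • e) = 16 * sq2 e := by
    intro e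
    simp only [sq2, Pi.smul_apply, smul_eq_mul, mul_pow, Finset.mul_sum]
    norm_num
  have hd : ∀ (e g : ι → ℝ), dot ((4:ℝ) • e) g = 4 * dot e g := by
    intro e g; simp [dot, Finset.mul_sum, mul_assoc]
  calc ∫ g, (cosh (dot c g) * cosh (dot d g)) ^ 2 ∂gaussVec ι
      ≤ ∫ g, (cosh (dot ((4:ℝ) • c) g) + cosh (dot ((4:ℝ) • d) g)) / 2 ∂gaussVec ι := by
        refine integral_mono (integrable_cc_sq c d)
          (((integrable_cosh_dot _).add (integrable_cosh_dot _)).div_const 2) fun g => ?_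
        simp only [hd]
        have h1 := cosh_pow_four_le (dot c g)
        have h2 := cosh_pow_four_le (dot d g)
        nlinarith [sq_nonneg (cosh (dot c g) ^ 2 - cosh (dot d g) ^ 2)]
    _ = _ := by
        rw [integral_div, integral_add (integrable_cosh_dot _) (integrable_cosh_dot _),
          integral_cosh_dot, integral_cosh_dot, h, h]
        ring_nf

end Vale.Agent.P150
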