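import Vale.Agent.P150.Split
import Vale.Agent.P150.Spectral

/-! Slow mixing throughout the low-temperature phase. -/

namespace Vale.Agent.P150

open MeasureTheory ProbabilityTheory Real Finset

section cont
variable {N : ℕ} (β : ℝ)

lemma continuous_gibbs (x : Conf N) : Continuous fun g => gibbs β g x := by
  have h : ∀ y : Conf N, Continuous fun g => hamiltonian β g y := fun y =>
    continuous_const.mul (continuous_finsetSum _ fun i _ => continuous_finsetSum _ fun j _ => by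
      by_cases hij : i < j
      · simp only [hij, if_true]; fun_prop
      · simp only [hij, if_false]; fun_prop)
  exact (continuous_exp.comp (h x)).div (continuous_finsetSum _ fun y _ => continuous_exp.comp (h y))
    fun g => (sum_exp_pos β g).ne'

lemma continuous_expect {f : (Fin N × Fin N → ℝ) → Conf N → ℝ}
    (hf : ∀ x, Continuous fun g => f g x) : Continuous fun g => expect β g (f g) :=
  continuous_finsetSum _ fun x _ => (continuous_gibbs β x).mul (hf x)

lemma continuous_stat (s : ℝ) : Continuous fun g : Fin N × Fin N → ℝ => stat β g s :=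
  continuous_expect β fun _ => continuous_expect β fun _ => continuous_const

lemma continuous_rowSq (i : Fin N) : Continuous fun g : Fin N × Fin N → ℝ => rowSq β g i :=
  continuous_finsetSum _ fun j _ =>
    (continuous_expect β (f := fun _ x => spin (x i) * spin (x j)) fun _ => continuous_const).pow 2

lemma corr_sq_le (g : Fin N × Fin N → ℝ) (i j : Fin N) :
    expect β g (fun x => spin (x i) * spin (x j)) ^ 2 ≤ 1 := by
  rw [← sq_abs]
  exact pow_le_one₀ (abs_nonneg _) (abs_expect_le β g fun x => by simp [abs_mul, abs_spin])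

lemma rowSq_le (g : Fin N × Fin N → ℝ) (i : Fin N) : rowSq β g i ≤ N := by
  refine (Finset.sum_le_sum fun j _ => corr_sq_le β g i j).trans ?_
  simp

lemma rowSq_nonneg (g : Fin N × Fin N → ℝ) (i : Fin N) : 0 ≤ rowSq β g i :=
  Finset.sum_nonneg fun _ _ => sq_nonneg _

lemma stat_ge_one {s : ℝ} (hs : 0 ≤ s) (g : Fin N × Fin N → ℝ) : 1 ≤ stat β g s := by
  calc (1:ℝ) = expect β g fun _ => expect β g fun _ => 1 := by simp [expect_const]
    _ ≤ _ := expect_mono β g fun x => expect_mono β g fun y =>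
      one_le_exp (mul_nonneg hs (abs_nonneg _))

variable {n : ℕ}

lemma continuous_restSq : Continuous fun g : Fin (n + 1) × Fin (n + 1) → ℝ => restSq β g :=
  continuous_finsetSum _ fun j _ => continuous_finsetSum _ fun k _ =>
    (continuous_expect β (f := fun _ x => spin (x j.succ) * spin (x k.succ))
      fun _ => continuous_const).pow 2

lemma restSq_mem (g : Fin (n + 1) × Fin (n + 1) → ℝ) :
    0 ≤ restSq β g ∧ restSq β g ≤ (n:ℝ) ^ 2 := by
  refine ⟨Finset.sum_nonneg fun _ _ => Finset.sum_nonneg fun _ _ => sq_nonneg _, ?_⟩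
  refine (Finset.sum_le_sum fun j _ => Finset.sum_le_sum fun k _ => corr_sq_le β g _ _).trans ?_
  simp [sq]

lemma continuous_cavityGibbs (ρ : Conf n) :
    Continuous fun g : Fin (n + 1) × Fin (n + 1) → ℝ => cavityGibbs β g ρ := by
  have h : ∀ σ : Conf n, Continuous fun g : Fin (n + 1) × Fin (n + 1) → ℝ => restHam β g σ :=
    fun σ => continuous_const.mul (continuous_finsetSum _ fun i _ => continuous_finsetSum _ fun j _ => by
      by_cases hij : i < j
      · simp only [hij, if_true]; fun_prop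
      · simp only [hij, if_false]; fun_prop)
  exact (continuous_exp.comp (h ρ)).div (continuous_finsetSum _ fun y _ => continuous_exp.comp (h y))
    fun g => (Finset.sum_pos (fun _ _ => exp_pos _) univ_nonempty).ne'

lemma continuous_Wc :
    Continuous fun g : Fin (n + 1) × Fin (n + 1) → ℝ => Wc (cavityGibbs β g) :=
  continuous_finsetSum _ fun _ _ => continuous_finsetSum _ fun _ _ =>
    ((continuous_cavityGibbs β _).mul (continuous_cavityGibbs β _)).mul continuous_const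

lemma continuous_Dc (s : ℝ) :
    Continuous fun g : Fin (n + 1) × Fin (n + 1) → ℝ => Dc (cavityGibbs β g) s :=
  continuous_finsetSum _ fun _ _ => continuous_finsetSum _ fun _ _ =>
    ((continuous_cavityGibbs β _).mul (continuous_cavityGibbs β _)).mul continuous_const

end cont

/-- smoothed indicator of `D ≤ T` -/
noncomputable def cutoff (T lam D : ℝ) : ℝ := 1 / (1 + (D / T) ^ lam)

section cut
variable {T lam : ℝ} (hT : 0 < T) (hl : 0 < lam) (hl1 : lam ≤ 1)
include hT hl hl1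

lemma cutoff_mem {D : ℝ} (hD : 0 < D) : 0 ≤ cutoff T lam D ∧ cutoff T lam D ≤ 1 := by
  have : 0 ≤ (D / T) ^ lam := rpow_nonneg (div_pos hD hT).le _
  unfold cutoff
  exact ⟨by positivity, div_le_one_of_le₀ (by linarith) (by linarith)⟩

lemma cutoff_change {D D' R : ℝ} (hD : 0 < D) (hD' : 0 < D') (hR : D ≤ R * D') :
    cutoff T lam D' ≤ cutoff T lam D * (1 + lam * R) := by
  have hR0 : 0 < R := pos_of_mul_pos_left (lt_of_lt_of_le hD hR) hD'.le
  have a1 : (D / T) ^ lam ≤ R ^ lam * (D' / T) ^ lam := by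
    rw [← mul_rpow hR0.le (div_pos hD' hT).le]
    refine rpow_le_rpow (div_pos hD hT).le ?_ hl.le
    rw [← mul_div_assoc]; gcongr
  have a2 : R ^ lam ≤ 1 + lam * R := by
    have h := rpow_one_add_le_one_add_mul_self (s := R - 1) (by linarith) hl.le hl1
    simp only [add_sub_cancel] at h
    linarith
  have h0 : 0 ≤ (D / T) ^ lam := rpow_nonneg (div_pos hD hT).le _
  have h0' : 0 ≤ (D' / T) ^ lam := rpow_nonneg (div_pos hD' hT).le _
  unfold cutoff
  rw [div_mul_eq_mul_div, one_mul, div_le_div_iff₀ (by linarith) (by linarith), one_mul]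
  have := mul_le_mul_of_nonneg_right a2 h0'
  have : 0 ≤ lam * R := by positivity
  nlinarith

lemma continuous_cutoff {X : Type*} [TopologicalSpace X] {F : X → ℝ} (hF : Continuous F)
    (hpos : ∀ x, 0 < F x) : Continuous fun x => cutoff T lam (F x) := by
  refine continuous_const.div (continuous_const.add
    ((hF.div_const T).rpow_const fun x => Or.inr hl.le)) fun x => ?_
  have := rpow_nonneg (div_pos (hpos x) hT).le lam
  linarith

lemma cutoff_small {D u : ℝ} (hu : 0 < u) (hD : 0 < D) (hTu : T = exp u) :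
    cutoff T lam D * min 1 (D * exp (-2 * u)) ≤ exp (-(lam * u / 2)) := by
  obtain ⟨h0, h1⟩ := cutoff_mem hT hl hl1 hD
  by_cases hc : D ≤ T * exp (u / 2)
  · calc _ ≤ 1 * (D * exp (-2 * u)) := mul_le_mul h1 (min_le_right _ _) (by positivity) zero_le_one
      _ ≤ T * exp (u / 2) * exp (-2 * u) := by rw [one_mul]; gcongr
      _ = exp (-(u / 2)) := by rw [hTu, ← exp_add, ← exp_add]; ring_nf
      _ ≤ _ := exp_le_exp.mpr (by nlinarith)
  · push Not at hc
    have h2 : exp (lam * u / 2) ≤ (D / T) ^ lam := by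
      calc exp (lam * u / 2) = exp (u / 2) ^ lam := by rw [← exp_mul]; ring_nf
        _ ≤ _ := rpow_le_rpow (exp_pos _).le (by rw [le_div_iff₀ hT]; linarith) hl.le
    calc _ ≤ cutoff T lam D * 1 := mul_le_mul_of_nonneg_left (min_le_left _ _) h0
      _ ≤ 1 / exp (lam * u / 2) := by
          rw [mul_one]; exact div_le_div_of_nonneg_left zero_le_one (exp_pos _) (by linarith)
      _ = _ := by rw [one_div, exp_neg]

end cut

lemma junk_moments {n : ℕ} {ν : Conf n → ℝ} (hν : ∀ ρ, 0 ≤ ν ρ) (h1 : ∑ ρ, ν ρ = 1)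
    {Nr ε s : ℝ} (hn : (n:ℝ) ≤ Nr) (hε : 0 < ε) (hs : 0 ≤ s) (hNr : 0 < Nr) :
    Wc ν ≤ 4 * ε ^ 2 * Nr ^ 2 + Nr ^ 2 * min 1 (Dc ν s * exp (-2 * (ε * (s * Nr))))
    ∧ R4 ν ≤ 4 * ε ^ 2 * Nr ^ 2 * Wc ν
        + Nr ^ 4 * min 1 (Dc ν s * exp (-2 * (ε * (s * Nr))))
    ∧ Wc ν ≤ Nr ^ 2 := by
  have hr : ∀ ρ σ : Conf n, overlap ρ σ ^ 2 ≤ Nr ^ 2 := fun ρ σ => by
    rw [← sq_abs]; exact pow_le_pow_left₀ (abs_nonneg _) ((abs_overlap_le ρ σ).trans hn) 2
  set L := 4 * ε ^ 2 * Nr ^ 2 with hL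
  set e := fun ρ σ : Conf n => exp (s * |overlap ρ σ|) * exp (-2 * (ε * (s * Nr))) with he
  have key : ∀ ρ σ, overlap ρ σ ^ 2 ≤ L + Nr ^ 2 * e ρ σ := by
    intro ρ σ
    rcases le_or_gt |overlap ρ σ| (2 * ε * Nr) with h | h
    · have h2 : overlap ρ σ ^ 2 ≤ L := by
        rw [← sq_abs, hL]; nlinarith [abs_nonneg (overlap ρ σ)]
      have : 0 ≤ Nr ^ 2 * e ρ σ := by simp only [he]; positivity
      linarith
    · have : 1 ≤ e ρ σ := by
        simp only [he, ← exp_add]; refine one_le_exp ?_; nlinarith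
      have := mul_le_mul_of_nonneg_left this (sq_nonneg Nr)
      have : 0 ≤ L := by rw [hL]; positivity
      linarith [hr ρ σ]
  have hsum : ∑ ρ, ∑ σ, ν ρ * ν σ * e ρ σ = Dc ν s * exp (-2 * (ε * (s * Nr))) := by
    simp only [Dc, Finset.sum_mul, he, mul_assoc]
  have hW2 : Wc ν ≤ Nr ^ 2 := by
    calc Wc ν ≤ ∑ ρ, ∑ σ, ν ρ * ν σ * Nr ^ 2 := Finset.sum_le_sum fun ρ _ =>
          Finset.sum_le_sum fun σ _ => mul_le_mul_of_nonneg_left (hr ρ σ) (mul_nonneg (hν ρ) (hν σ))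
      _ = Nr ^ 2 := by simp only [← Finset.sum_mul]; rw [sum_two ν h1, one_mul]
  have hW0 := Wc_nonneg ν
  have hL0 : 0 ≤ L := by rw [hL]; positivity
  have hW : Wc ν ≤ L + Nr ^ 2 * (Dc ν s * exp (-2 * (ε * (s * Nr)))) := by
    calc Wc ν ≤ ∑ ρ, ∑ σ, ν ρ * ν σ * (L + Nr ^ 2 * e ρ σ) := Finset.sum_le_sum fun ρ _ =>
          Finset.sum_le_sum fun σ _ => mul_le_mul_of_nonneg_left (key ρ σ) (mul_nonneg (hν ρ) (hν σ))
      _ = L * ∑ ρ, ∑ σ, ν ρ * ν σ + Nr ^ 2 * ∑ ρ, ∑ σ, ν ρ * ν σ * e ρ σ := by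
          simp only [mul_add, Finset.sum_add_distrib, Finset.mul_sum]
          congr 1 <;> exact Finset.sum_congr rfl fun ρ _ => Finset.sum_congr rfl fun σ _ => by ring
      _ = _ := by rw [hsum, sum_two ν h1, mul_one]
  have hR : R4 ν ≤ L * Wc ν + Nr ^ 4 * (Dc ν s * exp (-2 * (ε * (s * Nr)))) := by
    rw [← hsum, R4, Wc, Finset.mul_sum, Finset.mul_sum, ← Finset.sum_add_distrib]
    refine Finset.sum_le_sum fun ρ _ => ?_
    rw [Finset.mul_sum, Finset.mul_sum, ← Finset.sum_add_distrib]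
    refine Finset.sum_le_sum fun σ _ => ?_
    have hc := mul_nonneg (hν ρ) (hν σ)
    have h2 : overlap ρ σ ^ 4 ≤ L * overlap ρ σ ^ 2 + Nr ^ 4 * e ρ σ := by
      have := mul_le_mul_of_nonneg_left (key ρ σ) (sq_nonneg (overlap ρ σ))
      have := mul_le_mul_of_nonneg_right (hr ρ σ) (by simp only [he]; positivity : 0 ≤ Nr ^ 2 * e ρ σ)
      nlinarith
    have := mul_le_mul_of_nonneg_left h2 hc
    linarith
  have hR2 : R4 ν ≤ L * Wc ν + Nr ^ 4 * 1 := by
    calc R4 ν ≤ ∑ ρ, ∑ σ, ν ρ * ν σ * Nr ^ 4 := Finset.sum_le_sum fun ρ _ =>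
          Finset.sum_le_sum fun σ _ => mul_le_mul_of_nonneg_left (by
            have := pow_le_pow_left₀ (sq_nonneg (overlap ρ σ)) (hr ρ σ) 2
            rw [← pow_mul, ← pow_mul] at this; exact this) (mul_nonneg (hν ρ) (hν σ))
      _ = Nr ^ 4 := by simp only [← Finset.sum_mul]; rw [sum_two ν h1, one_mul]
      _ ≤ _ := by have := mul_nonneg hL0 hW0; linarith
  refine ⟨?_, ?_, hW2⟩
  · rw [mul_min_of_nonneg _ _ (sq_nonneg Nr), ← min_add_add_left]
    exact le_min (by linarith) hW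
  · rw [mul_min_of_nonneg _ _ (by positivity), ← min_add_add_left]
    exact le_min hR2 hR

lemma cavity_step {n : ℕ} {β δ ε s T : ℝ} (hn : 1 ≤ n) (hδ : 0 < δ)
    (hδb : 1 + δ ≤ β ^ 2 * (1 - δ) ^ 2) (hδ1 : δ ≤ 1) (hN : 2 ≤ δ * ((n + 1 : ℕ) : ℝ))
    (hε : 0 < ε) (hε1 : ε ≤ 1) (hεK : 10 * Kc (β ^ 2) * (1 + β ^ 4) * ε ≤ δ)
    (hs : 0 < s) (hs1 : s ≤ 1) (hT : T = exp (ε * (s * ((n + 1 : ℕ) : ℝ))))
    (hj : exp (-(ε * (ε * (s * ((n + 1 : ℕ) : ℝ))) / 2)) ≤ 1 / ((n + 1 : ℕ) : ℝ) ^ 2)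
    (g : Fin (n + 1) × Fin (n + 1) → ℝ) :
    (β / √((n + 1 : ℕ) : ℝ)) ^ 2 * (1 - δ) * (cutoff T ε (Dc (cavityGibbs β g) s) * Wc (cavityGibbs β g))
        - β ^ 2 * ((n + 1 : ℕ) : ℝ) * Kc (β ^ 2) / ε * exp (-(ε * (ε * (s * ((n + 1 : ℕ) : ℝ))) / 2))
      ≤ ∫ h, cutoff T ε (stat β (overwrite g h) s) * rowSq β (overwrite g h) 0 ∂gaussVec (Fin n)
    ∧ ∫ h, cutoff T ε (stat β (overwrite g h) s) * restSq β (overwrite g h) ∂gaussVec (Fin n)
      ≤ (1 + δ) * (cutoff T ε (Dc (cavityGibbs β g) s) * Wc (cavityGibbs β g))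
        + ((n + 1 : ℕ) : ℝ) ^ 2 * Kc (β ^ 2) * (1 + (β ^ 2) ^ 2) / ε
          * exp (-(ε * (ε * (s * ((n + 1 : ℕ) : ℝ))) / 2)) := by
  set Nr : ℝ := ((n + 1 : ℕ) : ℝ) with hNr
  have hNr0 : 0 < Nr := by rw [hNr]; positivity
  set a := β / √Nr with ha
  set b := β ^ 2 with hb
  set K := Kc b with hK
  have haN : a ^ 2 * Nr = b := by
    rw [ha, div_pow, sq_sqrt hNr0.le, div_mul_cancel₀ _ hNr0.ne']
  have hb0 : 0 ≤ b := sq_nonneg β
  have hnN : (n:ℝ) ≤ Nr := by rw [hNr]; push_cast; linarith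
  have hab : a ^ 2 * n ≤ b := haN ▸ mul_le_mul_of_nonneg_left hnN (sq_nonneg a)
  have hK1 : 1 ≤ K := (consts hb0).1
  have hT0 : 0 < T := hT ▸ exp_pos _
  set ψ := fun g : Fin (n + 1) × Fin (n + 1) → ℝ => cutoff T ε (stat β g s) with hψ
  have hD : ∀ g : Fin (n + 1) × Fin (n + 1) → ℝ, 0 < stat β g s :=
    fun g => lt_of_lt_of_le one_pos (stat_ge_one β hs.le g)
  have hψc : Continuous ψ := continuous_cutoff hT0 hε hε1 (continuous_stat β s) hD
  have hψ01 : ∀ g, 0 ≤ ψ g ∧ ψ g ≤ 1 := fun g => cutoff_mem hT0 hε hε1 (hD g)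
  set j := exp (-(ε * (ε * (s * Nr)) / 2)) with hj'
  set P := fun g : Fin (n + 1) × Fin (n + 1) → ℝ =>
    cutoff T ε (Dc (cavityGibbs β g) s) with hP
  set PW := fun g => P g * Wc (cavityGibbs β g) with hPW
  change a ^ 2 * (1 - δ) * PW g - b * Nr * K / ε * j
      ≤ ∫ h, ψ (overwrite g h) * rowSq β (overwrite g h) 0 ∂gaussVec (Fin n)
    ∧ ∫ h, ψ (overwrite g h) * restSq β (overwrite g h) ∂gaussVec (Fin n)
      ≤ (1 + δ) * PW g + Nr ^ 2 * K * (1 + b ^ 2) / ε * j
  set ν := cavityGibbs β g with hν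
  have hν0 := cavityGibbs_nonneg β g
  have hν1 := cavityGibbs_sum β g
  have hDc : 0 < Dc ν s := lt_of_lt_of_le one_pos (Dc_pos ν hν0 hν1 hs.le)
  have hP0 := (cutoff_mem hT0 hε hε1 hDc).1
  have hrow : ∀ h : Fin n → ℝ, (fun k : Fin n => overwrite g h (0, k.succ)) = h := fun h => by
    funext k; simp
  have hZ : ∀ h : Fin n → ℝ, 0 < Zc ν a h := fun h =>
    lt_of_lt_of_le one_pos (one_le_Zc ν a hν0 hν1 h)
  have hb' : ∀ h, stat β (overwrite g h) s ≤ exp s * (Kf ν a (fun ρ σ => exp (s * |overlap ρ σ|)) h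
        / Zc ν a h ^ 2)
      ∧ Dc ν s ≤ exp s * Zc ν a h ^ 2 * stat β (overwrite g h) s := by
    intro h
    have := stat_bounds β (overwrite g h) hs.le
    simpa only [cavityGibbs_overwrite, hrow, ← hν, ← ha, ← hNr] using this
  have cA : Continuous fun h => ψ (overwrite g h) * rowSq β (overwrite g h) 0 := by
    have hc : Continuous fun h : Fin n → ℝ => overwrite g h :=
      continuous_overwrite.comp (Continuous.prodMk continuous_const continuous_id)
    exact (hψc.comp hc).mul ((continuous_rowSq β 0).comp hc)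
  have cB : Continuous fun h => ψ (overwrite g h) * restSq β (overwrite g h) := by
    have hc : Continuous fun h : Fin n → ℝ => overwrite g h :=
      continuous_overwrite.comp (Continuous.prodMk continuous_const continuous_id)
    exact (hψc.comp hc).mul ((continuous_restSq β).comp hc)
  have iA : Integrable (fun h => ψ (overwrite g h) * rowSq β (overwrite g h) 0) (gaussVec (Fin n)) :=
    Integrable.of_bound cA.aestronglyMeasurable (Nr) (Filter.Eventually.of_forall fun h => by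
      rw [norm_eq_abs, abs_mul, abs_of_nonneg (hψ01 _).1, abs_of_nonneg (rowSq_nonneg β _ _)]
      exact (mul_le_of_le_one_left (rowSq_nonneg β _ _) (hψ01 _).2).trans (rowSq_le β _ _))
  have iB : Integrable (fun h => ψ (overwrite g h) * restSq β (overwrite g h)) (gaussVec (Fin n)) :=
    Integrable.of_bound cB.aestronglyMeasurable ((n:ℝ) ^ 2) (Filter.Eventually.of_forall fun h => by
      rw [norm_eq_abs, abs_mul, abs_of_nonneg (hψ01 _).1, abs_of_nonneg (restSq_mem β _).1]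
      exact (mul_le_of_le_one_left (restSq_mem β _).1 (hψ01 _).2).trans (restSq_mem β _).2)
  have eA : ∀ h, rowSq β (overwrite g h) 0 = ∑ k, (uf ν a k h / Zc ν a h) ^ 2 := by
    intro h; rw [rowSq_zero, cavityGibbs_overwrite, hrow]
  have eB : ∀ h, restSq β (overwrite g h)
      = Kf ν a (fun ρ σ => overlap ρ σ ^ 2) h / Zc ν a h ^ 2 := by
    intro h; rw [restSq_eq, cavityGibbs_overwrite, hrow]
  simp only [eA] at iA ⊢
  simp only [eB] at iB ⊢
  have hA := cavity_lower (b := b) (s := s) (lam := ε) (P0 := P g) hν0 hν1 hab haN hNr0 hb0 hε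
    hε.le hs.le hs1 hP0 hε1 (fun h => ψ (overwrite g h)) (fun h => (hψ01 _).1) iA (by
      intro h
      have hle : stat β (overwrite g h) s
          ≤ (exp s * Kf ν a (fun ρ σ => exp (s * |overlap ρ σ|)) h / (Dc ν s * Zc ν a h ^ 2))
            * Dc ν s := by
        refine (hb' h).1.trans (le_of_eq ?_)
        have := hZ h
        field_simp
      have := cutoff_change hT0 hε hε1 (hD _) hDc hle
      simpa only [mul_div_assoc, mul_assoc] using this)
  have hB := cavity_upper (b := b) (s := s) (lam := ε) (P0 := P g) hν0 hν1 hab haN hNr0 hb0 hε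
    hε.le hs.le hs1 hP0 _ iB (by
      intro h
      have := cutoff_change hT0 hε hε1 hDc (hD (overwrite g h)) (hb' h).2
      have hK2 : 0 ≤ Kf ν a (fun ρ σ => overlap ρ σ ^ 2) h / Zc ν a h ^ 2 :=
        div_nonneg (Kf_nonneg ν a hν0 (fun _ _ => sq_nonneg _) h) (sq_nonneg _)
      calc ψ (overwrite g h) * (Kf ν a (fun ρ σ => overlap ρ σ ^ 2) h / Zc ν a h ^ 2)
          ≤ (P g * (1 + ε * (exp s * Zc ν a h ^ 2)))
            * (Kf ν a (fun ρ σ => overlap ρ σ ^ 2) h / Zc ν a h ^ 2) :=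
            mul_le_mul_of_nonneg_right this hK2
        _ = _ := by ring)
  obtain ⟨j1, j2, j3⟩ := junk_moments hν0 hν1 hnN hε hs.le hNr0
  set mD := min 1 (Dc ν s * exp (-2 * (ε * (s * Nr))))
  set W := Wc ν
  have hW0 : 0 ≤ W := Wc_nonneg ν
  have hm : P g * mD ≤ j := cutoff_small hT0 hε hε1 (by positivity) hDc hT
  have hmD0 : 0 ≤ mD := le_min zero_le_one (by positivity)
  have hWX : W * (W / Nr ^ 2 / ε) ≤ 4 * ε * W + Nr ^ 2 * mD / ε := by
    have h1 : W ^ 2 ≤ 4 * ε ^ 2 * Nr ^ 2 * W + Nr ^ 2 * mD * Nr ^ 2 := by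
      have h2 := mul_le_mul_of_nonneg_right j1 hW0
      have h3 := mul_le_mul_of_nonneg_left j3 (mul_nonneg (sq_nonneg Nr) hmD0)
      linarith
    calc W * (W / Nr ^ 2 / ε) = W ^ 2 / (Nr ^ 2 * ε) := by ring
      _ ≤ (4 * ε ^ 2 * Nr ^ 2 * W + Nr ^ 2 * mD * Nr ^ 2) / (Nr ^ 2 * ε) := by gcongr
      _ = _ := by field_simp
  have hK6 : K * (6 * ε) ≤ δ := by
    have : 0 ≤ K * ε * β ^ 4 := by positivity
    have : 0 ≤ K * ε := by positivity
    linarith
  constructor
  · refine le_trans ?_ hA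
    have h1 : P g * (a ^ 2 * (W * (1 - K * (6 * ε)) - K * (Nr ^ 2 * mD / ε)))
        ≤ P g * (a ^ 2 * W * (1 - K * (ε + ε + W / Nr ^ 2 / ε))) := by
      refine mul_le_mul_of_nonneg_left ?_ hP0
      rw [mul_assoc (a ^ 2)]
      refine mul_le_mul_of_nonneg_left ?_ (sq_nonneg a)
      have := mul_le_mul_of_nonneg_left hWX (by linarith : (0:ℝ) ≤ K)
      linarith
    refine le_trans ?_ h1
    have h2 := mul_le_mul_of_nonneg_left hK6 (mul_nonneg (mul_nonneg hP0 (sq_nonneg a)) hW0)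
    have h3 := mul_le_mul_of_nonneg_left hm (by positivity : 0 ≤ b * Nr * K / ε)
    have e : P g * (a ^ 2 * (K * (Nr ^ 2 * mD / ε))) = b * Nr * K / ε * (P g * mD) := by
      rw [← haN]; ring
    simp only [hPW]; linarith
  · refine hB.trans ?_
    have hR : (a ^ 2) ^ 2 * R4 ν ≤ 4 * b ^ 2 * ε * W + b ^ 2 * Nr ^ 2 * mD / ε := by
      calc (a ^ 2) ^ 2 * R4 ν ≤ (a ^ 2) ^ 2 * (4 * ε ^ 2 * Nr ^ 2 * W + Nr ^ 4 * mD) :=
            mul_le_mul_of_nonneg_left j2 (sq_nonneg _)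
        _ = 4 * b ^ 2 * ε ^ 2 * W + b ^ 2 * Nr ^ 2 * mD := by rw [← haN]; ring
        _ ≤ _ := by
            refine add_le_add ?_ ?_
            · gcongr; exact pow_le_of_le_one hε.le hε1 two_ne_zero
            · exact le_div_self (by positivity) hε hε1
    have h1 : P g * (W * (1 + K * (ε + ε + W / Nr ^ 2 / ε)) + K * (a ^ 2) ^ 2 * R4 ν)
        ≤ P g * (W * (1 + 10 * K * (1 + β ^ 4) * ε) + K * (1 + b ^ 2) * (Nr ^ 2 * mD / ε)) := by
      refine mul_le_mul_of_nonneg_left ?_ hP0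
      have := mul_le_mul_of_nonneg_left hWX (by linarith : (0:ℝ) ≤ K)
      have := mul_le_mul_of_nonneg_left hR (by linarith : (0:ℝ) ≤ K)
      rw [show β ^ 4 = b ^ 2 by rw [hb]; ring]
      have : 0 ≤ K * W * ε * b ^ 2 := by positivity
      have : 0 ≤ K * W * ε := by positivity
      have e1 : W * (1 + K * (ε + ε + W / Nr ^ 2 / ε)) + K * (a ^ 2) ^ 2 * R4 ν
          = W + 2 * (K * W * ε) + K * (W * (W / Nr ^ 2 / ε)) + K * ((a ^ 2) ^ 2 * R4 ν) := by ring
      have e2 : K * (4 * ε * W + Nr ^ 2 * mD / ε)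
            + K * (4 * b ^ 2 * ε * W + b ^ 2 * Nr ^ 2 * mD / ε)
          = 4 * (K * W * ε) + 4 * (K * W * ε * b ^ 2) + K * (1 + b ^ 2) * (Nr ^ 2 * mD / ε) := by ring
      have e3 : W * (1 + 10 * K * (1 + b ^ 2) * ε)
          = W + 10 * (K * W * ε) + 10 * (K * W * ε * b ^ 2) := by ring
      linarith
    refine h1.trans ?_
    have h2 := mul_le_mul_of_nonneg_left hεK (mul_nonneg hP0 hW0)
    have h3 := mul_le_mul_of_nonneg_left hm (by positivity : 0 ≤ Nr ^ 2 * K * (1 + b ^ 2) / ε)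
    simp only [hPW]
    have e : P g * (K * (1 + b ^ 2) * (Nr ^ 2 * mD / ε)) = Nr ^ 2 * K * (1 + b ^ 2) / ε * (P g * mD) := by
      ring
    linarith

/-- The averaged cavity inequality. -/
theorem cutoff_mean {n : ℕ} {β δ ε s T : ℝ} (hn : 1 ≤ n) (hδ : 0 < δ)
    (hδb : 1 + δ ≤ β ^ 2 * (1 - δ) ^ 2) (hδ1 : δ ≤ 1) (hN : 2 ≤ δ * ((n + 1 : ℕ) : ℝ))
    (hε : 0 < ε) (hε1 : ε ≤ 1) (hεK : 10 * Kc (β ^ 2) * (1 + β ^ 4) * ε ≤ δ)
    (hs : 0 < s) (hs1 : s ≤ 1) (hT : T = exp (ε * (s * ((n + 1 : ℕ) : ℝ))))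
    (hj : exp (-(ε * (ε * (s * ((n + 1 : ℕ) : ℝ))) / 2)) ≤ 1 / ((n + 1 : ℕ) : ℝ) ^ 2) :
    ((n + 1 : ℕ) : ℝ) * ∫ g, cutoff T ε (stat β g s) ∂disorder (n + 1)
      ≤ 4 * (Kc (β ^ 2) * (1 + β ^ 4)) / ε := by
  set Nr : ℝ := ((n + 1 : ℕ) : ℝ) with hNr
  have hNr0 : 0 < Nr := by rw [hNr]; positivity
  set a := β / √Nr with ha
  set b := β ^ 2 with hb
  set K := Kc b with hK
  have haN : a ^ 2 * Nr = b := by
    rw [ha, div_pow, sq_sqrt hNr0.le, div_mul_cancel₀ _ hNr0.ne']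
  have hb0 : 0 ≤ b := sq_nonneg β
  have hnN : (n:ℝ) ≤ Nr := by rw [hNr]; push_cast; linarith
  have hab : a ^ 2 * n ≤ b := haN ▸ mul_le_mul_of_nonneg_left hnN (sq_nonneg a)
  have hK1 : 1 ≤ K := (consts hb0).1
  have hT0 : 0 < T := hT ▸ exp_pos _
  set ψ := fun g : Fin (n + 1) × Fin (n + 1) → ℝ => cutoff T ε (stat β g s) with hψ
  have hD : ∀ g : Fin (n + 1) × Fin (n + 1) → ℝ, 0 < stat β g s :=
    fun g => lt_of_lt_of_le one_pos (stat_ge_one β hs.le g)
  have hψc : Continuous ψ := continuous_cutoff hT0 hε hε1 (continuous_stat β s) hD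
  have hψ01 : ∀ g, 0 ≤ ψ g ∧ ψ g ≤ 1 := fun g => cutoff_mem hT0 hε hε1 (hD g)
  set j := exp (-(ε * (ε * (s * Nr)) / 2)) with hj'
  set P := fun g : Fin (n + 1) × Fin (n + 1) → ℝ =>
    cutoff T ε (Dc (cavityGibbs β g) s) with hP
  set PW := fun g => P g * Wc (cavityGibbs β g) with hPW
  -- the estimates for fixed couplings between the other sites
  have inner : ∀ g : Fin (n + 1) × Fin (n + 1) → ℝ,
      a ^ 2 * (1 - δ) * PW g - b * Nr * K / ε * j
        ≤ ∫ h, ψ (overwrite g h) * rowSq β (overwrite g h) 0 ∂gaussVec (Fin n)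
      ∧ ∫ h, ψ (overwrite g h) * restSq β (overwrite g h) ∂gaussVec (Fin n)
        ≤ (1 + δ) * PW g + Nr ^ 2 * K * (1 + b ^ 2) / ε * j := fun g =>
    cavity_step hn hδ hδb hδ1 hN hε hε1 hεK hs hs1 hT hj g
  -- averaging over everything
  have bound : ∀ (F : (Fin (n + 1) × Fin (n + 1) → ℝ) → ℝ) (c : ℝ), Continuous F →
      (∀ g, 0 ≤ F g ∧ F g ≤ c) → Integrable (fun g => ψ g * F g) (disorder (n + 1))
      ∧ Continuous (fun g => ψ g * F g) ∧ ∀ g, |ψ g * F g| ≤ c := by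
    intro F c hF hb
    have h : ∀ g, |ψ g * F g| ≤ c := fun g => by
      rw [abs_of_nonneg (mul_nonneg (hψ01 g).1 (hb g).1)]
      exact (mul_le_of_le_one_left (hb g).1 (hψ01 g).2).trans (hb g).2
    exact ⟨Integrable.of_bound (hψc.mul hF).aestronglyMeasurable c
      (Filter.Eventually.of_forall fun g => h g), hψc.mul hF, h⟩
  obtain ⟨iRow, cRow, bRow⟩ := bound _ Nr (continuous_rowSq β 0)
    fun g => ⟨rowSq_nonneg β g 0, rowSq_le β g 0⟩
  obtain ⟨iRest, cRest, bRest⟩ := bound _ ((n:ℝ) ^ 2) (continuous_restSq β) (restSq_mem β)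
  have hPWc : Continuous PW := by
    refine Continuous.mul (continuous_cutoff hT0 hε hε1 (continuous_Dc β s) fun g => ?_)
      (continuous_Wc β)
    exact lt_of_lt_of_le one_pos (Dc_pos _ (cavityGibbs_nonneg β g) (cavityGibbs_sum β g) hs.le)
  have hPWb : ∀ g, 0 ≤ PW g ∧ PW g ≤ Nr ^ 2 := by
    intro g
    have hm := cutoff_mem hT0 hε hε1
      (lt_of_lt_of_le one_pos (Dc_pos _ (cavityGibbs_nonneg β g) (cavityGibbs_sum β g) hs.le))
    refine ⟨mul_nonneg hm.1 (Wc_nonneg _), (mul_le_of_le_one_left (Wc_nonneg _) hm.2).trans ?_⟩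
    exact (junk_moments (cavityGibbs_nonneg β g) (cavityGibbs_sum β g) hnN hε hs.le hNr0).2.2
  have iPW : Integrable PW (disorder (n + 1)) :=
    Integrable.of_bound hPWc.aestronglyMeasurable (Nr ^ 2)
      (Filter.Eventually.of_forall fun g => by rw [norm_eq_abs, abs_of_nonneg (hPWb g).1]; exact (hPWb g).2)
  have iI : ∀ (F : (Fin (n + 1) × Fin (n + 1) → ℝ) → ℝ) (c : ℝ), Continuous F → (∀ g, |F g| ≤ c) →
      Integrable (fun g => ∫ h, F (overwrite g h) ∂gaussVec (Fin n)) (disorder (n + 1)) := by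
    intro F c hF hc
    exact (Integrable.of_bound (hF.comp continuous_overwrite).aestronglyMeasurable c
      (Filter.Eventually.of_forall fun p => hc _) :
      Integrable _ ((disorder (n + 1)).prod (gaussVec (Fin n)))).integral_prod_left
  set U := ∫ g, PW g ∂disorder (n + 1)
  set Eψ := ∫ g, ψ g ∂disorder (n + 1)
  set A := ∫ g, ψ g * rowSq β g 0 ∂disorder (n + 1) with hA
  set B := ∫ g, ψ g * restSq β g ∂disorder (n + 1) with hB
  have hAle : a ^ 2 * (1 - δ) * U - b * Nr * K / ε * j ≤ A := by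
    rw [hA, integral_split cRow bRow]
    refine le_trans (le_of_eq ?_) (integral_mono ((iPW.const_mul _).sub (integrable_const _))
      (iI _ _ cRow bRow) fun g => (inner g).1)
    simp only [Pi.sub_apply]
    rw [integral_sub (iPW.const_mul _) (integrable_const _), integral_const_mul, integral_const,
      probReal_univ, one_smul]
  have hBle : B ≤ (1 + δ) * U + Nr ^ 2 * K * (1 + b ^ 2) / ε * j := by
    rw [hB, integral_split cRest bRest]
    refine le_trans (integral_mono (iI _ _ cRest bRest) ((iPW.const_mul _).add (integrable_const _))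
      fun g => (inner g).2) (le_of_eq ?_)
    simp only [Pi.add_apply]
    rw [integral_add (iPW.const_mul _) (integrable_const _), integral_const_mul, integral_const,
      probReal_univ, one_smul]
  have iψ : Integrable ψ (disorder (n + 1)) :=
    Integrable.of_bound hψc.aestronglyMeasurable 1
      (Filter.Eventually.of_forall fun g => by rw [norm_eq_abs, abs_of_nonneg (hψ01 g).1]; exact (hψ01 g).2)
  have ident : (n:ℝ) * Eψ + ((n:ℝ) - 1) * A = B := by
    have h1 : ∀ i, ∫ g, ψ g * rowSq β g i ∂disorder (n + 1) = A := by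
      intro i
      rw [← integral_relabel (Equiv.swap (0 : Fin (n + 1)) i) (Equiv.swap_apply_self _ _)]
      simp only [hψ, stat_relabel, rowSq_relabel, Equiv.swap_apply_right]
      rfl
    have h2 : ∫ g, ∑ i, ψ g * rowSq β g i ∂disorder (n + 1) = Nr * A := by
      rw [integral_finsetSum _ fun i _ => (bound _ Nr (continuous_rowSq β i)
        fun g => ⟨rowSq_nonneg β g i, rowSq_le β g i⟩).1]
      simp [h1, hNr]
    have h3 : ∫ g, ∑ i, ψ g * rowSq β g i ∂disorder (n + 1) = 2 * A + (B - (n:ℝ) * Eψ) := by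
      have e : (fun g => ∑ i, ψ g * rowSq β g i)
          = fun g => 2 * (ψ g * rowSq β g 0) + (ψ g * restSq β g - (n:ℝ) * ψ g) := by
        funext g; rw [← Finset.mul_sum, sum_rowSq]; ring
      have i2 : Integrable (fun g => ψ g * restSq β g - (n:ℝ) * ψ g) (disorder (n + 1)) :=
        iRest.sub (iψ.const_mul _)
      rw [e, integral_add (iRow.const_mul 2) i2, integral_sub iRest (iψ.const_mul _),
        integral_const_mul, integral_const_mul]
    rw [h2, hNr] at h3; push_cast at h3; linarith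
  have hU : 0 ≤ U := integral_nonneg fun g => (hPWb g).1
  have hn' : (n:ℝ) = Nr - 1 := by rw [hNr]; push_cast; ring
  have hn1 : (1:ℝ) ≤ n := by exact_mod_cast hn
  have hcoef : 1 + δ ≤ ((n:ℝ) - 1) * (a ^ 2 * (1 - δ)) := by
    have h1 : (1 - δ) * Nr ≤ (n:ℝ) - 1 := by linarith
    calc 1 + δ ≤ b * (1 - δ) ^ 2 := hδb
      _ = ((1 - δ) * Nr) * (a ^ 2 * (1 - δ)) := by rw [← haN]; ring
      _ ≤ _ := mul_le_mul_of_nonneg_right h1 (mul_nonneg (sq_nonneg a) (by linarith))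
  have h4 := mul_le_mul_of_nonneg_right hcoef hU
  have h5 := mul_le_mul_of_nonneg_left hAle (by linarith : (0:ℝ) ≤ (n:ℝ) - 1)
  have hj0 : 0 ≤ j := (exp_pos _).le
  have h6 : ((n:ℝ) - 1) * (b * Nr * K / ε * j) ≤ Nr ^ 2 * K * b / ε * j := by
    calc _ ≤ Nr * (b * Nr * K / ε * j) := mul_le_mul_of_nonneg_right (by linarith) (by positivity)
      _ = _ := by ring
  have h7 : (n:ℝ) * Eψ ≤ Nr ^ 2 * K * (1 + b + b ^ 2) / ε * j := by
    have e : Nr ^ 2 * K * (1 + b + b ^ 2) / ε * j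
        = Nr ^ 2 * K * b / ε * j + Nr ^ 2 * K * (1 + b ^ 2) / ε * j := by ring
    linarith
  have h8 : Nr ^ 2 * K * (1 + b + b ^ 2) / ε * j ≤ K * (1 + b + b ^ 2) / ε := by
    calc _ = (K * (1 + b + b ^ 2) / ε) * (Nr ^ 2 * j) := by ring
      _ ≤ _ := mul_le_of_le_one_right (by positivity) (by
          rw [le_div_iff₀ (by positivity)] at hj; linarith)
  have h9 : Nr * Eψ ≤ 2 * ((n:ℝ) * Eψ) := by
    have : 0 ≤ Eψ := integral_nonneg fun g => (hψ01 g).1
    rw [← mul_assoc]; exact mul_le_mul_of_nonneg_right (by linarith) this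
  have h10 : K * (1 + b + b ^ 2) / ε ≤ 2 * (K * (1 + β ^ 4)) / ε := by
    rw [show β ^ 4 = b ^ 2 by rw [hb]; ring]
    refine div_le_div_of_nonneg_right ?_ hε.le
    have := mul_le_mul_of_nonneg_left (by nlinarith [sq_nonneg (b - 1)] : b ≤ 1 + b ^ 2) (by linarith : (0:ℝ) ≤ K)
    linarith
  calc Nr * Eψ ≤ 2 * (2 * (K * (1 + β ^ 4)) / ε) := by linarith
    _ = _ := by ring

/-- Slow mixing for every `β > 1`. -/
theorem slow_mixing {β : ℝ} (hβ : 1 < β) : ∃ C : ℝ, 0 < C ∧ ∀ N : ℕ, 2 ≤ N →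
    (disorder N).real {g | ¬ (spectralGap β g ≤ C * log N ^ 2 / N ∧
      ∀ t, 0 ≤ t → t < N / (C * log N ^ 2) → ∃ x, 1 / 4 < tvDist β g t x)} ≤ C / N := by
  have hb1 : 1 < β ^ 2 := by nlinarith
  set δ := (β ^ 2 - 1) / (4 * β ^ 2) with hδd
  have hδ : 0 < δ := div_pos (by linarith) (by positivity)
  have hδe : 4 * β ^ 2 * δ = β ^ 2 - 1 := by rw [hδd]; field_simp
  have hδ1 : δ ≤ 1 := by nlinarith
  have hδb : 1 + δ ≤ β ^ 2 * (1 - δ) ^ 2 := by
    nlinarith [mul_nonneg (sq_nonneg β) (sq_nonneg δ), mul_nonneg (by linarith : (0:ℝ) ≤ β ^ 2 - 1) hδ.le]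
  set K := Kc (β ^ 2) * (1 + β ^ 4) with hK
  have hK1 : 1 ≤ K := one_le_mul_of_one_le_of_one_le (consts (sq_nonneg β)).1 (by nlinarith)
  set ε := δ / (10 * K) with hεd
  have hε : 0 < ε := div_pos hδ (by positivity)
  have hεK : 10 * K * ε = δ := by rw [hεd]; field_simp
  have hε1 : ε ≤ 1 := by nlinarith
  set N0 : ℝ := 2 / δ + 64 / (ε * ε) ^ 2 with hN0
  set C : ℝ := N0 + 1280 / (ε * ε) ^ 2 + 8 * K / ε with hC
  have hC0 : 0 < C := by positivity
  refine ⟨C, hC0, fun N hN2 => ?_⟩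
  set Bad := {g : Fin N × Fin N → ℝ | ¬ (spectralGap β g ≤ C * log N ^ 2 / N ∧
      ∀ t, 0 ≤ t → t < N / (C * log N ^ 2) → ∃ x, 1 / 4 < tvDist β g t x)} with hBad
  have hNpos : (0:ℝ) < N := by exact_mod_cast (by omega : 0 < N)
  by_cases hsmall : (N:ℝ) ≤ N0
  · calc (disorder N).real Bad ≤ 1 := measureReal_le_one
      _ ≤ C / N := by
          rw [le_div_iff₀ hNpos, one_mul, hC]
          have : 0 ≤ 1280 / (ε * ε) ^ 2 := by positivity
          have : 0 ≤ 8 * K / ε := by positivity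
          linarith
  push Not at hsmall
  obtain ⟨n, rfl⟩ : ∃ n, N = n + 1 := ⟨N - 1, by omega⟩
  set Nr : ℝ := ((n + 1 : ℕ) : ℝ) with hNr
  set M := 4 * log Nr / (ε * ε) with hM
  have hlog : 0 < log Nr := log_pos (by rw [hNr]; exact_mod_cast (by omega : 1 < n + 1))
  set s := M / Nr with hs
  have hs0 : 0 < s := by positivity
  have hsN : s * Nr = M := div_mul_cancel₀ _ hNpos.ne'
  have hδN : 2 ≤ δ * Nr := by
    have : 2 / δ ≤ Nr := by
      have : 0 ≤ 64 / (ε * ε) ^ 2 := by positivity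
      linarith
    rw [div_le_iff₀ hδ] at this; linarith
  have hs1 : s ≤ 1 := by
    rw [hs, div_le_one hNpos, hM, div_le_iff₀ (by positivity)]
    have h1 : log Nr ≤ 2 * √Nr := by
      have := log_le_sub_one_of_pos (sqrt_pos.mpr hNpos)
      rw [log_sqrt hNpos.le] at this; linarith
    have h2 : 8 ≤ √Nr * (ε * ε) := by
      have h3 : 64 ≤ Nr * (ε * ε) ^ 2 := by
        rw [← div_le_iff₀ (by positivity)]
        have : 0 ≤ 2 / δ := by positivity
        linarith
      nlinarith [sq_sqrt hNpos.le, sqrt_nonneg Nr, mul_pos hε hε, mul_nonneg (sqrt_nonneg Nr) (mul_pos hε hε).le]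
    calc 4 * log Nr ≤ 8 * √Nr := by linarith
      _ ≤ (√Nr * (ε * ε)) * √Nr := by gcongr
      _ = Nr * (ε * ε) := by rw [mul_right_comm, mul_self_sqrt hNpos.le]
  have hj : exp (-(ε * (ε * (s * Nr)) / 2)) ≤ 1 / Nr ^ 2 := by
    rw [hsN, hM, show -(ε * (ε * (4 * log Nr / (ε * ε))) / 2) = -(log Nr + log Nr) by field_simp; ring,
      exp_neg, exp_add, exp_log hNpos, ← sq, one_div]
  set T := exp (ε * (s * Nr)) with hT
  have hmean := cutoff_mean (n := n) (β := β) (s := s) (T := T) (by omega) hδ hδb hδ1 hδN hε hε1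
    (le_of_eq (by rw [← hεK, hK]; ring)) hs0 hs1 rfl hj
  have hT0 : 0 < T := exp_pos _
  have hsub : Bad ⊆ {g | 1 / 2 ≤ cutoff T ε (stat β g s)} := by
    intro g hg
    by_contra hc
    simp only [Set.mem_setOf_eq, not_le] at hc
    have hDT : T < stat β g s := by
      by_contra h
      push Not at h
      have hD := lt_of_lt_of_le one_pos (stat_ge_one β hs0.le g)
      have h1 : (stat β g s / T) ^ ε ≤ 1 :=
        rpow_le_one (div_pos hD hT0).le (div_le_one_of_le₀ h hT0.le) hε.le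
      have h0 : 0 ≤ (stat β g s / T) ^ ε := rpow_nonneg (div_pos hD hT0).le _
      rw [cutoff, div_lt_iff₀ (by linarith)] at hc; linarith
    have hT6 : (6:ℝ) ≤ T := by
      rw [hT, hsN, hM]
      calc (6:ℝ) ≤ Nr ^ 4 := by
            have : (2:ℝ) ≤ Nr := by rw [hNr]; exact_mod_cast hN2
            linarith [pow_le_pow_left₀ (by norm_num) this 4]
        _ = exp (4 * log Nr) := by rw [show (4:ℝ) = ((4:ℕ):ℝ) by norm_num, exp_nat_mul, exp_log hNpos]
        _ ≤ _ := exp_le_exp.mpr (by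
            rw [show ε * (4 * log Nr / (ε * ε)) = 4 * log Nr / ε by field_simp]
            exact le_div_self (by positivity) hε hε1)
    obtain ⟨f, hf0, hfv, hfd⟩ := test_function β g hs0.le hs1 (lt_of_le_of_lt hT6 hDT)
    set R := 40 * Nr * s ^ 2 with hR
    have hR1 : R = 640 / (ε * ε) ^ 2 * (log Nr ^ 2 / Nr) := by
      rw [hR, hs, hM]; field_simp; ring
    have hRC : 2 * R ≤ C * (log Nr ^ 2 / Nr) := by
      rw [hR1, ← mul_assoc]
      refine mul_le_mul_of_nonneg_right ?_ (by positivity)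
      have : 0 ≤ N0 := by positivity
      have : 0 ≤ 8 * K / ε := by positivity
      have e : 2 * (640 / (ε * ε) ^ 2) = 1280 / (ε * ε) ^ 2 := by ring
      linarith
    have hR0 : 0 < R := by positivity
    apply hg
    refine ⟨?_, fun t ht0 ht => tv_lower β g hf0 hfv hfd ht0 ?_⟩
    · unfold spectralGap
      have hbd : BddBelow {r | ∃ h : Conf (n + 1) → ℝ, 0 < gibbsVar β g h ∧
          r = dirichlet β g h / gibbsVar β g h} := by
        refine ⟨0, ?_⟩
        rintro r ⟨h, hh, rfl⟩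
        exact div_nonneg (dirichlet_nonneg β g h) hh.le
      refine le_trans (csInf_le hbd ⟨f, hfv, rfl⟩) ?_
      rw [div_le_iff₀ hfv, mul_div_assoc]
      refine hfd.trans (mul_le_mul_of_nonneg_right ?_ hfv.le)
      linarith
    · have h1 := mul_lt_mul_of_pos_left ht (mul_pos two_pos hR0)
      have h2 : 2 * R * (Nr / (C * log Nr ^ 2)) ≤ 1 := by
        calc _ ≤ C * (log Nr ^ 2 / Nr) * (Nr / (C * log Nr ^ 2)) :=
              mul_le_mul_of_nonneg_right hRC (by positivity)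
          _ = 1 := by field_simp
      linarith [log_two_gt_d9]
  have hψc : Continuous fun g : Fin (n + 1) × Fin (n + 1) → ℝ => cutoff T ε (stat β g s) :=
    continuous_cutoff hT0 hε hε1 (continuous_stat β s)
      fun g => lt_of_lt_of_le one_pos (stat_ge_one β hs0.le g)
  have hψ01 : ∀ g : Fin (n + 1) × Fin (n + 1) → ℝ,
      0 ≤ cutoff T ε (stat β g s) ∧ cutoff T ε (stat β g s) ≤ 1 := fun g =>
    cutoff_mem hT0 hε hε1 (lt_of_lt_of_le one_pos (stat_ge_one β hs0.le g))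
  have hmk := mul_meas_ge_le_integral_of_nonneg (μ := disorder (n + 1))
    (f := fun g => cutoff T ε (stat β g s)) (Filter.Eventually.of_forall fun g => (hψ01 g).1)
    (Integrable.of_bound hψc.aestronglyMeasurable 1
      (Filter.Eventually.of_forall fun g => by rw [norm_eq_abs, abs_of_nonneg (hψ01 g).1]; exact (hψ01 g).2))
    (1 / 2)
  rw [le_div_iff₀ hNpos]
  calc (disorder (n + 1)).real Bad * Nr
      ≤ (2 * ∫ g, cutoff T ε (stat β g s) ∂disorder (n + 1)) * Nr := by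
        refine mul_le_mul_of_nonneg_right ?_ hNpos.le
        have := measureReal_mono (μ := disorder (n + 1)) hsub
        linarith
    _ ≤ 2 * (4 * K / ε) := by linarith
    _ ≤ C := by
        have : 0 ≤ 1280 / (ε * ε) ^ 2 := by positivity
        have : 0 ≤ N0 := by positivity
        have e : 2 * (4 * K / ε) = 8 * K / ε := by ring
        linarith

end Vale.Agent.P150
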