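import Vale.Agent.P150.Cavity

/-! Splitting off one site, and exchangeability of the sites. -/

namespace Vale.Agent.P150

open MeasureTheory ProbabilityTheory Real Finset

/-- Replace the couplings of site `0`. -/
def overwrite {n : ℕ} (g : Fin (n + 1) × Fin (n + 1) → ℝ) (h : Fin n → ℝ) :
    Fin (n + 1) × Fin (n + 1) → ℝ := fun k =>
  if k.1 = 0 then Fin.cases (g k) h k.2 else g k

@[simp] lemma overwrite_row {n : ℕ} (g h) (k : Fin n) :
    overwrite g h (0, k.succ) = h k := by simp [overwrite]

@[simp] lemma overwrite_rest {n : ℕ} (g h) (i j : Fin n) :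
    overwrite g h (i.succ, j.succ) = g (i.succ, j.succ) := by
  simp [overwrite, Fin.succ_ne_zero]

lemma continuous_overwrite {n : ℕ} :
    Continuous fun p : (Fin (n + 1) × Fin (n + 1) → ℝ) × (Fin n → ℝ) => overwrite p.1 p.2 := by
  refine continuous_pi fun k => ?_
  rcases k with ⟨i, j⟩
  unfold overwrite
  by_cases hi : i = 0
  · induction j using Fin.cases with
    | zero => simp [hi]; fun_prop
    | succ j => simp [hi]; fun_prop
  · simp [hi]; fun_prop

instance (N : ℕ) : IsProbabilityMeasure (disorder N) := by unfold disorder; infer_instance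

lemma map_overwrite (n : ℕ) :
    ((disorder (n + 1)).prod (gaussVec (Fin n))).map (fun p => overwrite p.1 p.2)
      = disorder (n + 1) := by
  symm
  refine Measure.pi_eq fun S hS => ?_
  rw [Measure.map_apply continuous_overwrite.measurable (MeasurableSet.univ_pi hS)]
  set T : Fin (n + 1) × Fin (n + 1) → Set ℝ := fun k =>
    if k.1 = 0 ∧ k.2 ≠ 0 then Set.univ else S k with hT
  have hpre : (fun p : (Fin (n + 1) × Fin (n + 1) → ℝ) × (Fin n → ℝ) => overwrite p.1 p.2) ⁻¹'
      Set.univ.pi S = Set.univ.pi T ×ˢ Set.univ.pi (fun j => S (0, j.succ)) := by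
    ext ⟨g, h⟩
    simp only [Set.mem_preimage, Set.mem_univ_pi, Set.mem_prod, hT]
    constructor
    · intro H
      refine ⟨fun k => ?_, fun j => by simpa using H (0, j.succ)⟩
      split_ifs with hk
      · trivial
      · have := H k
        rcases k with ⟨i, j⟩
        by_cases hi : i = 0
        · induction j using Fin.cases with
          | zero => simpa [overwrite, hi] using this
          | succ j => exact absurd ⟨hi, Fin.succ_ne_zero j⟩ hk
        · simpa [overwrite, hi] using this
    · rintro ⟨H1, H2⟩ ⟨i, j⟩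
      by_cases hi : i = 0
      · subst hi
        induction j using Fin.cases with
        | zero => simpa [overwrite] using H1 (0, 0)
        | succ j => simpa using H2 j
      · simpa [overwrite, hi] using H1 (i, j)
  rw [hpre, Measure.prod_prod, disorder, gaussVec, Measure.pi_pi, Measure.pi_pi,
    Fintype.prod_prod_type, Fintype.prod_prod_type, Fin.prod_univ_succ, Fin.prod_univ_succ]
  simp only [hT, Fin.succ_ne_zero, false_and, if_false, true_and]
  conv_rhs => rw [Fin.prod_univ_succ, Fin.prod_univ_succ]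
  simp only [Fin.succ_ne_zero, ne_eq, not_false_eq_true, if_true, not_true_eq_false, if_false,
    measure_univ, Finset.prod_const_one, mul_one, stdG]
  ring

lemma integral_split {n : ℕ} {F : (Fin (n + 1) × Fin (n + 1) → ℝ) → ℝ} (hc : Continuous F)
    {c : ℝ} (hb : ∀ g, |F g| ≤ c) :
    ∫ g, F g ∂disorder (n + 1)
      = ∫ g, (∫ h, F (overwrite g h) ∂gaussVec (Fin n)) ∂disorder (n + 1) := by
  conv_lhs => rw [← map_overwrite n]
  rw [integral_map continuous_overwrite.aemeasurable hc.aestronglyMeasurable]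
  refine integral_prod _ ?_
  exact Integrable.of_bound (hc.comp continuous_overwrite).aestronglyMeasurable c
    (Filter.Eventually.of_forall fun p => hb _)

section
variable {n : ℕ} (β : ℝ) (g : Fin (n + 1) × Fin (n + 1) → ℝ)

/-- Interaction of the sites other than `0`, at the same coupling strength. -/
noncomputable def restHam (ρ : Conf n) : ℝ :=
  β / √((n + 1 : ℕ) : ℝ) * ∑ i : Fin n, ∑ j : Fin n,
    if i < j then g (i.succ, j.succ) * spin (ρ i) * spin (ρ j) else 0

/-- Gibbs measure with site `0` removed. -/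
noncomputable def cavityGibbs (ρ : Conf n) : ℝ :=
  exp (restHam β g ρ) / ∑ σ, exp (restHam β g σ)

lemma cavityGibbs_nonneg (ρ : Conf n) : 0 ≤ cavityGibbs β g ρ := by
  unfold cavityGibbs; positivity

lemma cavityGibbs_sum : ∑ ρ : Conf n, cavityGibbs β g ρ = 1 := by
  unfold cavityGibbs
  rw [← Finset.sum_div]
  exact div_self (Finset.sum_pos (fun _ _ => exp_pos _) univ_nonempty).ne'

lemma cavityGibbs_overwrite (h : Fin n → ℝ) :
    cavityGibbs β (overwrite g h) = cavityGibbs β g := by
  funext ρ; simp [cavityGibbs, restHam]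

lemma ham_cons (e : Bool) (ρ : Conf n) :
    hamiltonian β g (Fin.cons e ρ) = spin e * dot (cv (β / √((n + 1 : ℕ) : ℝ)) ρ)
      (fun k => g (0, k.succ)) + restHam β g ρ := by
  unfold hamiltonian restHam dot cv
  rw [Fin.sum_univ_succ, Fin.sum_univ_succ]
  simp only [lt_self_iff_false, if_false, Fin.succ_pos, if_true, Fin.cons_zero, Fin.cons_succ,
    zero_add, Fin.sum_univ_succ, Fin.not_lt_zero, Fin.succ_lt_succ_iff]
  rw [mul_add]
  congr 1
  simp only [Finset.mul_sum]
  exact Finset.sum_congr rfl fun k _ => by ring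

lemma sum_conf {M : Type*} [AddCommMonoid M] (F : Conf (n + 1) → M) :
    ∑ x, F x = ∑ ρ : Conf n, (F (Fin.cons true ρ) + F (Fin.cons false ρ)) := by
  rw [← (Fin.consEquiv fun _ => Bool).sum_comp, Fintype.sum_prod_type, Fintype.sum_bool,
    ← Finset.sum_add_distrib]
  rfl

lemma gibbs_cons (e : Bool) (ρ : Conf n) :
    gibbs β g (Fin.cons e ρ) = cavityGibbs β g ρ
      * exp (spin e * dot (cv (β / √((n + 1 : ℕ) : ℝ)) ρ) (fun k => g (0, k.succ)))
      / (2 * Zc (cavityGibbs β g) (β / √((n + 1 : ℕ) : ℝ)) (fun k => g (0, k.succ))) := by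
  set a := β / √((n + 1 : ℕ) : ℝ)
  set h : Fin n → ℝ := fun k => g (0, k.succ)
  set S := ∑ σ : Conf n, exp (restHam β g σ)
  have hS : 0 < S := Finset.sum_pos (fun _ _ => exp_pos _) univ_nonempty
  have e1 : ∑ y, exp (hamiltonian β g y) = S * (2 * Zc (cavityGibbs β g) a h) := by
    rw [sum_conf, Zc, Finset.mul_sum, Finset.mul_sum]
    refine Finset.sum_congr rfl fun σ _ => ?_
    rw [ham_cons, ham_cons, exp_add, exp_add, cosh_eq, cavityGibbs]
    simp only [spin, if_true, Bool.false_eq_true, if_false, one_mul, neg_one_mul]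
    field_simp
    ring
  have hZ : 0 < Zc (cavityGibbs β g) a h :=
    lt_of_lt_of_le one_pos (one_le_Zc _ _ (cavityGibbs_nonneg β g) (cavityGibbs_sum β g) h)
  change exp (hamiltonian β g (Fin.cons e ρ)) / _ = exp (restHam β g ρ) / S * exp (spin e * dot (cv a ρ) h) / (2 * Zc (cavityGibbs β g) a h)
  rw [e1, ham_cons, exp_add]
  change exp (spin e * dot (cv a ρ) h) * exp (restHam β g ρ) / _ = _
  field_simp

lemma expect_rest (F : Conf n → ℝ) :
    expect β g (fun x => F (Fin.tail x))
      = (∑ ρ, cavityGibbs β g ρ * F ρ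
          * cosh (dot (cv (β / √((n + 1 : ℕ) : ℝ)) ρ) (fun k => g (0, k.succ))))
        / Zc (cavityGibbs β g) (β / √((n + 1 : ℕ) : ℝ)) (fun k => g (0, k.succ)) := by
  unfold expect
  rw [sum_conf, Finset.sum_div]
  refine Finset.sum_congr rfl fun ρ _ => ?_
  rw [gibbs_cons, gibbs_cons]
  simp only [Fin.tail_cons]
  rw [cosh_eq]
  simp only [spin, if_true, Bool.false_eq_true, if_false, one_mul, neg_one_mul]
  ring

lemma expect_zero_succ (j : Fin n) :
    expect β g (fun x => spin (x 0) * spin (x j.succ))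
      = uf (cavityGibbs β g) (β / √((n + 1 : ℕ) : ℝ)) j (fun k => g (0, k.succ))
        / Zc (cavityGibbs β g) (β / √((n + 1 : ℕ) : ℝ)) (fun k => g (0, k.succ)) := by
  unfold expect uf
  rw [sum_conf, Finset.sum_div]
  refine Finset.sum_congr rfl fun ρ _ => ?_
  rw [gibbs_cons, gibbs_cons, sinh_eq]
  simp only [Fin.cons_zero, Fin.cons_succ, spin, if_true, Bool.false_eq_true, if_false, one_mul,
    neg_one_mul]
  ring

lemma expect_rest_two (F : Conf n → Conf n → ℝ) :
    expect β g (fun x => expect β g (fun y => F (Fin.tail x) (Fin.tail y)))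
      = Kf (cavityGibbs β g) (β / √((n + 1 : ℕ) : ℝ)) F (fun k => g (0, k.succ))
        / Zc (cavityGibbs β g) (β / √((n + 1 : ℕ) : ℝ)) (fun k => g (0, k.succ)) ^ 2 := by
  simp only [fun x : Conf (n + 1) => expect_rest β g (F (Fin.tail x))]
  rw [expect_rest β g (fun ρ => (∑ σ, cavityGibbs β g σ * F ρ σ
    * cosh (dot (cv (β / √((n + 1 : ℕ) : ℝ)) σ) (fun k => g (0, k.succ))))
      / Zc (cavityGibbs β g) (β / √((n + 1 : ℕ) : ℝ)) (fun k => g (0, k.succ))), sq, ← div_div]
  congr 1
  simp only [Kf, Finset.sum_div]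
  refine Finset.sum_congr rfl fun ρ _ => ?_
  rw [Finset.mul_sum, Finset.sum_mul]
  refine Finset.sum_congr rfl fun σ _ => ?_
  ring

lemma stat_bounds {s : ℝ} (hs : 0 ≤ s) :
    stat β g s ≤ exp s * (Kf (cavityGibbs β g) (β / √((n + 1 : ℕ) : ℝ))
        (fun ρ σ => exp (s * |overlap ρ σ|)) (fun k => g (0, k.succ))
        / Zc (cavityGibbs β g) (β / √((n + 1 : ℕ) : ℝ)) (fun k => g (0, k.succ)) ^ 2)
    ∧ Dc (cavityGibbs β g) s ≤ exp s
        * Zc (cavityGibbs β g) (β / √((n + 1 : ℕ) : ℝ)) (fun k => g (0, k.succ)) ^ 2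
        * stat β g s := by
  set ν := cavityGibbs β g
  set a := β / √((n + 1 : ℕ) : ℝ)
  set h : Fin n → ℝ := fun k => g (0, k.succ)
  have ho : ∀ x y : Conf (n + 1),
      overlap x y = spin (x 0) * spin (y 0) + overlap (Fin.tail x) (Fin.tail y) := fun x y => by
    simp [overlap, Fin.sum_univ_succ, Fin.tail]
  have hab : ∀ x y : Conf (n + 1), |(|overlap x y| - |overlap (Fin.tail x) (Fin.tail y)|)| ≤ 1 := by
    intro x y
    refine (abs_abs_sub_abs_le_abs_sub _ _).trans ?_
    rw [ho, add_sub_cancel_right, abs_mul, abs_spin, abs_spin, mul_one]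
  have h2 := expect_rest_two β g (fun ρ σ => exp (s * |overlap ρ σ|))
  constructor
  · rw [← h2]
    calc stat β g s ≤ expect β g (fun x => exp s * expect β g
          (fun y => exp (s * |overlap (Fin.tail x) (Fin.tail y)|))) := by
          refine expect_mono β g fun x => ?_
          unfold expect
          rw [Finset.mul_sum]
          refine Finset.sum_le_sum fun y _ => ?_
          rw [mul_left_comm (exp s), ← exp_add]
          refine mul_le_mul_of_nonneg_left (exp_le_exp.mpr ?_) (gibbs_pos β g y).le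
          have := mul_le_mul_of_nonneg_left (abs_le.mp (hab x y)).2 hs
          linarith
      _ = _ := by unfold expect; rw [Finset.mul_sum]; exact Finset.sum_congr rfl fun x _ => by ring
  · have h3 : Kf ν a (fun ρ σ => exp (s * |overlap ρ σ|)) h / Zc ν a h ^ 2 ≤ exp s * stat β g s := by
      rw [← h2]
      unfold stat
      calc _ ≤ expect β g (fun x => exp s * expect β g fun y => exp (s * |overlap x y|)) := by
            refine expect_mono β g fun x => ?_
            unfold expect
            rw [Finset.mul_sum]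
            refine Finset.sum_le_sum fun y _ => ?_
            rw [mul_left_comm (exp s), ← exp_add]
            refine mul_le_mul_of_nonneg_left (exp_le_exp.mpr ?_) (gibbs_pos β g y).le
            have := mul_le_mul_of_nonneg_left (abs_le.mp (hab x y)).1 hs
            linarith
        _ = _ := by unfold expect; rw [Finset.mul_sum]; exact Finset.sum_congr rfl fun x _ => by ring
    have hK : Dc ν s ≤ Kf ν a (fun ρ σ => exp (s * |overlap ρ σ|)) h := by
      refine Finset.sum_le_sum fun ρ _ => Finset.sum_le_sum fun σ _ => le_mul_of_one_le_right ?_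
        (one_le_mul_of_one_le_of_one_le (one_le_cosh _) (one_le_cosh _))
      exact mul_nonneg (mul_nonneg (cavityGibbs_nonneg β g ρ) (cavityGibbs_nonneg β g σ)) (exp_pos _).le
    have hZ : 0 < Zc ν a h ^ 2 :=
      pow_pos (lt_of_lt_of_le one_pos (one_le_Zc _ _ (cavityGibbs_nonneg β g) (cavityGibbs_sum β g) h)) 2
    rw [div_le_iff₀ hZ] at h3
    calc Dc ν s ≤ exp s * stat β g s * Zc ν a h ^ 2 := hK.trans h3
      _ = _ := by ring

/-- squared correlations with one site -/
noncomputable def rowSq {N : ℕ} (β : ℝ) (g : Fin N × Fin N → ℝ) (i : Fin N) : ℝ :=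
  ∑ j ∈ univ.erase i, expect β g (fun x => spin (x i) * spin (x j)) ^ 2

lemma rowSq_zero : rowSq β g 0 = ∑ j : Fin n,
    (uf (cavityGibbs β g) (β / √((n + 1 : ℕ) : ℝ)) j (fun k => g (0, k.succ))
      / Zc (cavityGibbs β g) (β / √((n + 1 : ℕ) : ℝ)) (fun k => g (0, k.succ))) ^ 2 := by
  have : (univ : Finset (Fin (n + 1))).erase 0 = univ.image Fin.succ := by
    ext j; induction j using Fin.cases <;> simp [Fin.succ_ne_zero]
  rw [rowSq, this, Finset.sum_image fun _ _ _ _ h => Fin.succ_injective _ h]
  simp only [expect_zero_succ]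

/-- squared correlations among the sites other than `0` -/
noncomputable def restSq : ℝ :=
  ∑ j : Fin n, ∑ k : Fin n, expect β g (fun x => spin (x j.succ) * spin (x k.succ)) ^ 2

lemma restSq_eq : restSq β g
    = Kf (cavityGibbs β g) (β / √((n + 1 : ℕ) : ℝ)) (fun ρ σ => overlap ρ σ ^ 2)
        (fun k => g (0, k.succ))
      / Zc (cavityGibbs β g) (β / √((n + 1 : ℕ) : ℝ)) (fun k => g (0, k.succ)) ^ 2 := by
  rw [← expect_rest_two]
  simp only [restSq, expect, overlap, Fin.tail, sq]
  simp only [Finset.sum_mul_sum]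
  simp only [Finset.mul_sum]
  conv_lhs => enter [2, j]; rw [Finset.sum_comm]
  rw [Finset.sum_comm]
  refine Finset.sum_congr rfl fun x _ => ?_
  conv_lhs => enter [2, j]; rw [Finset.sum_comm]
  rw [Finset.sum_comm]
  refine Finset.sum_congr rfl fun y _ => Finset.sum_congr rfl fun j _ =>
    Finset.sum_congr rfl fun k _ => ?_
  ring

lemma sum_rowSq : ∑ i, rowSq β g i = 2 * rowSq β g 0 + (restSq β g - n) := by
  set c : Fin (n + 1) → Fin (n + 1) → ℝ :=
    fun i j => expect β g (fun x => spin (x i) * spin (x j)) ^ 2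
  have hc : ∀ i, c i i = 1 := fun i => by simp [c, spin_sq, expect_const]
  have hs : ∀ i j, c i j = c j i := fun i j => by simp only [c, mul_comm]
  have hr : ∀ i, rowSq β g i = ∑ j, c i j - 1 := fun i => by
    rw [← Finset.add_sum_erase univ (c i) (mem_univ i), hc]; simp [rowSq, c]
  have h0 : rowSq β g 0 = ∑ j : Fin n, c 0 j.succ := by
    rw [hr, Fin.sum_univ_succ, hc]; ring
  have hR : restSq β g = ∑ j : Fin n, ∑ k : Fin n, c j.succ k.succ := rfl
  simp only [hr]
  rw [Finset.sum_sub_distrib, Fin.sum_univ_succ, Fin.sum_univ_succ (f := fun j => c 0 j), hc,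
    Finset.sum_congr rfl (fun j _ => Fin.sum_univ_succ (f := fun k => c (Fin.succ j) k)),
    Finset.sum_add_distrib]
  have e : ∑ j : Fin n, c j.succ 0 = ∑ j : Fin n, c 0 j.succ := Finset.sum_congr rfl fun j _ => hs _ _
  rw [e, hR]
  have h0' := hr 0
  rw [Fin.sum_univ_succ (f := fun j => c 0 j), hc] at h0'
  simp only [Finset.sum_const, Finset.card_univ, Fintype.card_fin, nsmul_eq_mul, mul_one]
  push_cast
  linarith

end

section
variable {N : ℕ} (σ : Equiv.Perm (Fin N))

/-- relabelling of the disorder index -/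
def pairPerm (k : Fin N × Fin N) : Fin N × Fin N :=
  if k.1 = k.2 then (σ k.1, σ k.2)
  else if decide (k.1 < k.2) = decide (σ k.1 < σ k.2) then (σ k.1, σ k.2) else (σ k.2, σ k.1)

lemma pairPerm_involutive (hσ : Function.Involutive σ) : Function.Involutive (pairPerm σ) := by
  rintro ⟨i, j⟩
  by_cases hij : i = j
  · simp [pairPerm, hij, hσ j]
  have hne : σ i ≠ σ j := σ.injective.ne hij
  unfold pairPerm
  rcases lt_or_gt_of_ne hij with h | h <;> rcases lt_or_gt_of_ne hne with h' | h' <;>
    simp [hij, hne, hne.symm, h, h', h.asymm, h'.asymm, hσ i, hσ j]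

/-- relabelled disorder -/
def relabel (g : Fin N × Fin N → ℝ) : Fin N × Fin N → ℝ := fun k => g (pairPerm σ k)

lemma integral_relabel (hσ : Function.Involutive σ) (F : (Fin N × Fin N → ℝ) → ℝ) :
    ∫ g, F (relabel σ g) ∂disorder N = ∫ g, F g ∂disorder N := by
  let e : (Fin N × Fin N) ≃ (Fin N × Fin N) := (pairPerm_involutive σ hσ).toPerm
  have h := measurePreserving_piCongrLeft (fun _ : Fin N × Fin N => gaussianReal 0 1) e
  have h2 := h.integral_comp' F
  rw [disorder, ← h2]
  refine integral_congr_ae (Filter.Eventually.of_forall fun g => ?_)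
  change F _ = F _
  congr 1
  funext k
  obtain ⟨m, rfl⟩ := e.surjective k
  rw [MeasurableEquiv.coe_piCongrLeft, Equiv.piCongrLeft_apply_apply]
  simp [relabel, e, pairPerm_involutive σ hσ m]

lemma coupling_relabel (g : Fin N × Fin N → ℝ) {i j : Fin N} (hij : i ≠ j) :
    coupling (relabel σ g) i j = coupling g (σ i) (σ j) := by
  have hne : σ i ≠ σ j := σ.injective.ne hij
  unfold coupling relabel pairPerm
  rcases lt_or_gt_of_ne hij with h | h <;> rcases lt_or_gt_of_ne hne with h' | h' <;>
    simp [hij, hij.symm, hne, hne.symm, h, h', h.asymm, h'.asymm]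

lemma ham_relabel (β : ℝ) (g : Fin N × Fin N → ℝ) (x : Conf N) :
    hamiltonian β (relabel σ g) (x ∘ σ) = hamiltonian β g x := by
  rw [hamiltonian_eq, hamiltonian_eq]
  congr 1
  refine Fintype.sum_equiv σ _ _ fun i => ?_
  simp only [Function.comp_apply]
  congr 1
  unfold localField
  congr 1
  refine Finset.sum_equiv σ (by simp) fun j hj => ?_
  rw [coupling_relabel σ g (Finset.ne_of_mem_erase hj).symm]; rfl

lemma expect_relabel (β : ℝ) (g : Fin N × Fin N → ℝ) (f : Conf N → ℝ) :
    expect β (relabel σ g) f = expect β g (fun x => f (x ∘ σ)) := by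
  have hb : Function.Bijective fun x : Conf N => x ∘ σ := by
    refine ⟨fun x y h => ?_, fun x => ⟨x ∘ σ.symm, by funext i; simp⟩⟩
    funext i; simpa using congrFun h (σ.symm i)
  have hZ : ∑ y, exp (hamiltonian β (relabel σ g) y) = ∑ y, exp (hamiltonian β g y) :=
    (Fintype.sum_bijective _ hb _ _ fun x => by rw [ham_relabel]).symm
  symm
  refine Fintype.sum_bijective _ hb _ _ fun x => ?_
  simp only [gibbs, hZ, ham_relabel]

lemma stat_relabel (β s : ℝ) (g : Fin N × Fin N → ℝ) :
    stat β (relabel σ g) s = stat β g s := by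
  have ho : ∀ x y : Conf N, overlap (x ∘ σ) (y ∘ σ) = overlap x y := fun x y =>
    Fintype.sum_equiv σ _ _ fun _ => rfl
  simp only [stat, expect_relabel, ho]

lemma rowSq_relabel (β : ℝ) (g : Fin N × Fin N → ℝ) (i : Fin N) :
    rowSq β (relabel σ g) i = rowSq β g (σ i) := by
  unfold rowSq
  refine Finset.sum_equiv σ (by simp) fun j _ => ?_
  simp only [expect_relabel, Function.comp_apply]

end
end Vale.Agent.P150
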